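import Vale.Agent.P287D.On.Cur

/-!
# P287D, block ON: existence of divisorial places (**DIV**, **VAL**, **CTR**)
-/

open Set IntermediateField Polynomial
open Vale.Agent.P297 (Place)
open Vale.Agent.P297Z

noncomputable section

namespace Vale.Agent.P287D.On

section nrm

variable {A K : Type} [CommRing A] [IsDomain A] [IsIntegrallyClosed A] [Field K] [Algebra A K]
  [FaithfulSMul A K] {b : K}

theorem coeff_dvd (hb : IsIntegral A b) (b0 : b ≠ 0) {a : A} (a0 : a ≠ 0)
    (hb' : IsIntegral A (algebraMap A K a * b⁻¹)) : ∃ m, (minpoly A b).coeff 0 ∣ a ^ m := by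
  obtain ⟨q, hq, e⟩ := hb'
  have a1 : algebraMap A K a ≠ 0 := by simpa using a0
  let := invertibleOfNonzero (mul_ne_zero a1 (inv_ne_zero b0))
  have h1 := scaleRoots_aeval_eq_zero (r := a) (p := q.reverse)
    ((eval₂_reverse_eq_zero_iff _ _ _).2 e)
  rw [invOf_eq_inv, mul_inv, inv_inv, ← mul_assoc, mul_inv_cancel₀ a1, one_mul] at h1
  obtain ⟨r, hr⟩ := minpoly.isIntegrallyClosed_dvd hb h1
  refine ⟨q.reverse.natDegree, r.coeff 0, ?_⟩
  rw [← mul_coeff_zero, ← hr, coeff_scaleRoots, coeff_zero_reverse, hq.leadingCoeff, one_mul,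
    Nat.sub_zero]

theorem coeff_ne (hb : IsIntegral A b) (b0 : b ≠ 0) : (minpoly A b).coeff 0 ≠ 0 := by
  intro e
  have h1 := X_mul_divX_add (minpoly A b)
  have h2 := minpoly.aeval A b
  rw [e, C_0, add_zero] at h1
  rw [← h1, map_mul, aeval_X] at h2
  have h3 := eq_zero_of_dvd_of_degree_lt
    (minpoly.isIntegrallyClosed_dvd hb ((mul_eq_zero.1 h2).resolve_left b0))
    (degree_divX_lt (minpoly.ne_zero hb))
  rw [h3, mul_zero] at h1
  exact minpoly.ne_zero hb h1.symm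

omit [IsDomain A] [IsIntegrallyClosed A] [FaithfulSMul A K] in
theorem inv_mem_of_unit (h : IsUnit ((minpoly A b).coeff 0)) :
    b⁻¹ ∈ Algebra.adjoin A {b} := by
  obtain ⟨u, hu⟩ := h.exists_right_inv
  have h2 := minpoly.aeval A b
  rw [← X_mul_divX_add (minpoly A b), map_add, map_mul, aeval_X, aeval_C] at h2
  have h3 := congrArg (algebraMap A K) hu
  rw [map_mul, map_one] at h3
  have : b⁻¹ = -(algebraMap A K u * aeval b (divX (minpoly A b))) := by
    refine inv_eq_of_mul_eq_one_right ?_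
    linear_combination h3 - algebraMap A K u * h2
  rw [this]
  exact neg_mem (mul_mem (Subalgebra.algebraMap_mem _ _) (aeval_mem_adjoin_singleton A b))

end nrm

theorem alg_mono {R S K : Type} [CommRing R] [CommRing S] [Field K] [Algebra R K] [Algebra S K]
    (hR : Function.Injective (algebraMap R K)) (hS : Function.Injective (algebraMap S K))
    (h : ∀ r, ∃ s, algebraMap S K s = algebraMap R K r) {x : K} (hx : IsAlgebraic R x) :
    IsAlgebraic S x := by
  choose φ hφ using h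
  let ψ : R →+* S :=
    { toFun := φ
      map_one' := hS (by rw [hφ, map_one, map_one])
      map_mul' := fun a b => hS (by rw [map_mul, hφ, hφ, hφ, map_mul])
      map_zero' := hS (by rw [hφ, map_zero, map_zero])
      map_add' := fun a b => hS (by rw [map_add, hφ, hφ, hφ, map_add]) }
  let := ψ.toAlgebra
  have : IsScalarTower R S K := .of_algebraMap_eq fun a => (hφ a).symm
  exact hx.extendScalars fun a b e => hR ((hφ a).symm.trans ((congrArg _ e).trans (hφ b)))

section gen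

variable {k K : Type} [Field k] [Field K] [Algebra k K]

/-- Noether normalisation -/
theorem nn (B : Subalgebra k K) (hB : B.FG) : ∃ (d : ℕ) (y : Fin d → K),
    AlgebraicIndependent k y ∧ (∀ i, y i ∈ B) ∧
      ∀ b ∈ B, (MvPolynomial.aeval y : MvPolynomial (Fin d) k →ₐ[k] K).toRingHom.IsIntegralElem b := by
  have : Algebra.FiniteType k B := (Subalgebra.fg_iff_finiteType B).1 hB
  obtain ⟨d, g, h1, h2⟩ := exists_integral_inj_algHom_of_fg k B
  have e : MvPolynomial.aeval (fun i => (g (MvPolynomial.X i) : K)) = B.val.comp g := by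
    ext i
    simp
  refine ⟨d, fun i => g (MvPolynomial.X i), ?_, fun i => (g _).2, fun b hb => ?_⟩
  · rw [AlgebraicIndependent, e]
    exact Subtype.val_injective.comp h1
  · rw [e]
    exact (h2 ⟨b, hb⟩).map B.val.toRingHom

theorem exists_var {d : ℕ} {y : Fin d → K} (hy : AlgebraicIndependent k y) {B : Subalgebra k K}
    (h1 : ∀ i, y i ∈ B) (h2 : ∀ b ∈ B,
      (MvPolynomial.aeval y : MvPolynomial (Fin d) k →ₐ[k] K).toRingHom.IsIntegralElem b)
    {b : K} (hb : b ∈ B) (b0 : b ≠ 0) (hi : b⁻¹ ∉ B) :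
    ∃ i, ∀ a ∈ Algebra.adjoin k (y '' {i}ᶜ), a ≠ 0 → a * b⁻¹ ∉ B := by
  let : Algebra (MvPolynomial (Fin d) k) K := (MvPolynomial.aeval y).toRingHom.toAlgebra
  have : FaithfulSMul (MvPolynomial (Fin d) k) K := (faithfulSMul_iff_algebraMap_injective _ _).2 hy
  by_contra e
  push Not at e
  have p0 := coeff_ne (A := MvPolynomial (Fin d) k) (h2 b hb) b0
  have h3 : ((minpoly (MvPolynomial (Fin d) k) b).coeff 0).vars = ∅ := by
    refine Finset.eq_empty_of_forall_notMem fun i => ?_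
    obtain ⟨a, ha, a0, hab⟩ := e i
    have h4 : Algebra.adjoin k (y '' {i}ᶜ) =
        (MvPolynomial.supported k {i}ᶜ).map (MvPolynomial.aeval y) := by
      rw [MvPolynomial.supported_eq_adjoin_X, AlgHom.map_adjoin, image_image]
      simp
    rw [h4] at ha
    obtain ⟨a, ha, rfl⟩ := ha
    have a1 : a ≠ 0 := fun z => a0 (by rw [z, map_zero])
    obtain ⟨m, r, hr⟩ := coeff_dvd (A := MvPolynomial (Fin d) k) (h2 b hb) b0 a1 (h2 _ hab)
    have h5 : i ∉ (a ^ m).vars := fun z => MvPolynomial.mem_supported.1 (pow_mem ha m) z rfl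
    have r0 : r ≠ 0 := fun z => pow_ne_zero m a1 (by rw [hr, z, mul_zero])
    rw [MvPolynomial.mem_vars_iff_degreeOf_ne_zero, not_not] at h5 ⊢
    rw [hr, MvPolynomial.degreeOf_mul_eq p0 r0] at h5
    omega
  rw [MvPolynomial.vars_eq_empty_iff_eq_C] at h3
  have h6 := inv_mem_of_unit (A := MvPolynomial (Fin d) k) (b := b) (by
    rw [h3]
    refine (IsUnit.mk0 _ fun z => p0 ?_).map MvPolynomial.C
    rw [h3, z, map_zero])
  have h7 : ∀ a : MvPolynomial (Fin d) k, MvPolynomial.aeval y a ∈ B := fun a => by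
    have : (MvPolynomial.aeval y).range ≤ B := by
      rw [← Algebra.adjoin_range_eq_range_aeval]
      exact Algebra.adjoin_le (range_subset_iff.2 h1)
    exact this ⟨a, rfl⟩
  have h8 : Algebra.adjoin (MvPolynomial (Fin d) k) {b} ≤
      ({ B.toSubsemiring with algebraMap_mem' := h7 } : Subalgebra _ K) :=
    Algebra.adjoin_le (singleton_subset_iff.2 hb)
  exact hi (h8 h6)

theorem trdeg_one {d : ℕ} {y : Fin d → K} (hy : IsTranscendenceBasis k y) (i : Fin d) :
    Algebra.trdeg (adjoin k (y '' {i}ᶜ)) K = 1 := by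
  have h1 : IsTranscendenceBasis (adjoin k (y '' {i}ᶜ)) fun _ : Unit => y i := by
    rw [isTranscendenceBasis_iff_algebraicIndependent_isAlgebraic]
    refine ⟨algebraicIndependent_unique_type_iff.2 (transcendental_adjoin_iff.2
      (hy.1.transcendental_adjoin (by simp))), ⟨fun x => ?_⟩⟩
    have h2 : Algebra.adjoin k (range y) ≤ (Algebra.adjoin (adjoin k (y '' {i}ᶜ))
        (range fun _ : Unit => y i)).restrictScalars k := by
      refine Algebra.adjoin_le ?_
      rintro _ ⟨j, rfl⟩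
      rw [SetLike.mem_coe, Subalgebra.mem_restrictScalars]
      by_cases e : j = i
      · exact Algebra.subset_adjoin ⟨(), congrArg y e.symm⟩
      · exact Subalgebra.algebraMap_mem (Algebra.adjoin (adjoin k (y '' {i}ᶜ)) _)
          ⟨y j, subset_adjoin _ _ ⟨j, e, rfl⟩⟩
    exact alg_mono Subtype.val_injective Subtype.val_injective
      (fun r => ⟨⟨r, h2 r.2⟩, rfl⟩) (hy.isAlgebraic.1 x)
  simpa using h1.lift_cardinalMk_eq_trdeg.symm

/-- a valuation ring in which a given non unit is a non unit -/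
theorem exists_val {T : Subring K} {b : K} (hb : b ∈ T) (b0 : b ≠ 0) (hi : b⁻¹ ∉ T) :
    ∃ R : ValuationSubring K, (∀ a ∈ T, a ∈ R) ∧ b⁻¹ ∉ R := by
  obtain ⟨R, h1, h2⟩ := Ideal.image_subset_nonunits_valuationSubring
    (Ideal.span {(⟨b, hb⟩ : T)}) (by
      rw [Ne, Ideal.span_singleton_eq_top, isUnit_iff_exists_inv]
      rintro ⟨c, hc⟩
      exact hi (inv_eq_of_mul_eq_one_right (congrArg Subtype.val hc) ▸ c.2))
  exact ⟨R, h1, (R.mem_nonunits_iff_or.1
    (h2 ⟨_, Ideal.mem_span_singleton_self _, rfl⟩)).resolve_left b0⟩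

/-- fractions with denominators in `D` -/
def frc (B D : Subalgebra k K) (h : D ≤ B) : Subring K where
  carrier := {x | ∃ a ∈ D, a ≠ 0 ∧ a * x ∈ B}
  mul_mem' := fun {x y} ⟨a, ha, a0, hx⟩ ⟨c, hc, c0, hy⟩ => ⟨a * c, mul_mem ha hc, mul_ne_zero a0 c0,
    by rw [mul_mul_mul_comm]; exact mul_mem hx hy⟩
  one_mem' := ⟨1, one_mem _, one_ne_zero, mul_mem (one_mem _) (one_mem _)⟩
  add_mem' := fun {x y} ⟨a, ha, a0, hx⟩ ⟨c, hc, c0, hy⟩ => ⟨a * c, mul_mem ha hc, mul_ne_zero a0 c0,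
    by
      rw [show a * c * (x + y) = a * x * c + a * (c * y) by ring]
      exact add_mem (mul_mem hx (h hc)) (mul_mem (h ha) hy)⟩
  zero_mem' := ⟨1, one_mem _, one_ne_zero, mul_mem (one_mem _) (zero_mem _)⟩
  neg_mem' := fun {x} ⟨a, ha, a0, hx⟩ => ⟨a, ha, a0, by rw [mul_neg]; exact neg_mem hx⟩

end gen

variable {K : Type} [Field K] [Algebra ℂ K] {n : ℕ}

theorem rd_mul (P : Pl K) {f g : K} (h : f ∈ P.ring) (h' : g ∈ P.ring) :
    P.rd (f * g) = P.rd f * P.rd g := by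
  rw [rd_eq P h, rd_eq P h', rd_eq P (mul_mem h h'), ← map_mul]
  rfl

theorem rd_zero_iff (P : Pl K) {f : K} (h : f ∈ P.ring) : P.rd f = 0 ↔ f = 0 ∨ 0 < P.ord f := by
  rw [rd_eq P h, ← Pl.mem_maximalIdeal_iff P.toPlace ⟨f, h⟩]
  exact IsLocalRing.residue_eq_zero_iff _

theorem rd_div (P : Pl K) {f g : K} (h : f ∈ P.ring) (h' : g ∈ P.ring) (hi : g⁻¹ ∈ P.ring) :
    P.rd (f / g) = P.rd f / P.rd g := by
  by_cases g0 : g = 0
  · rw [g0, div_zero, (rd_zero_iff P (zero_mem _)).2 (Or.inl rfl), div_zero]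
  have h1 : P.rd g ≠ 0 := fun e => ((rd_zero_iff P h').1 e).elim g0 fun z => by
    have := Pl.ord_unit _ h' hi
    omega
  rw [eq_div_iff h1, ← rd_mul P (div_eq_mul_inv f g ▸ mul_mem h hi) h', div_mul_cancel₀ _ g0]

/-- the subfield of the residue field generated by the image of `S` -/
def img (P : Pl K) (S : Set K) : IntermediateField ℂ P.κ := adjoin ℂ (P.rd '' S)

theorem mem_img (P : Pl K) {S : Set K} {a : K} (h : a ∈ S) : P.rd a ∈ img P S :=
  subset_adjoin _ _ ⟨a, h, rfl⟩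

variable {k : Type} [Field k] [Algebra ℂ k] [Algebra k K] [IsScalarTower ℂ k K]

/-- **DIV**, the algebraic case -/
theorem div_alg (h : FF K n) {B : Subalgebra k K} (hB : B.FG) (ha : Algebra.IsAlgebraic B K)
    {b : K} (hb : b ∈ B) (b0 : b ≠ 0) (hi : b⁻¹ ∉ B) : ∃ P : Pl K, (∀ a ∈ B, a ∈ P.ring) ∧
      0 < P.ord b ∧ Algebra.IsAlgebraic (img P B) P.κ := by
  obtain ⟨d, y, hy, h1, h2⟩ := nn B hB
  obtain ⟨i, hv⟩ := exists_var hy h1 h2 hb b0 hi
  have hD : Algebra.adjoin k (y '' {i}ᶜ) ≤ B := Algebra.adjoin_le (by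
    rintro _ ⟨j, -, rfl⟩; exact h1 j)
  have hT : ∀ a ∈ B, a ∈ frc B _ hD := fun a z => ⟨1, one_mem _, one_ne_zero, by rwa [one_mul]⟩
  obtain ⟨R, hR, hb'⟩ := exists_val (hT b hb) b0 fun ⟨a, z, a0, w⟩ => hv a z a0 w
  have hI : ∀ s ∈ Algebra.adjoin k (y '' {i}ᶜ), s⁻¹ ∈ R := fun s hs => by
    by_cases s0 : s = 0
    · rw [s0, inv_zero]; exact zero_mem _
    · exact hR _ ⟨s, hs, s0, by rw [mul_inv_cancel₀ s0]; exact one_mem _⟩
  have hy' : IsTranscendenceBasis k y := by
    rw [isTranscendenceBasis_iff_algebraicIndependent_isAlgebraic]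
    refine ⟨hy, ?_⟩
    have h3 : Algebra.adjoin k (range y) ≤ B := Algebra.adjoin_le (range_subset_iff.2 h1)
    let := (Subalgebra.inclusion h3).toAlgebra
    have : IsScalarTower (Algebra.adjoin k (range y)) B K := .of_algebraMap_eq fun _ => rfl
    have : Algebra.IsAlgebraic (Algebra.adjoin k (range y)) B := ⟨fun c => by
      refine (isAlgebraic_algebraMap_iff (A := K) Subtype.val_injective).1 ?_
      let : Algebra (MvPolynomial (Fin d) k) K := (MvPolynomial.aeval y).toRingHom.toAlgebra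
      refine alg_mono (R := MvPolynomial (Fin d) k) hy Subtype.val_injective (fun r => ?_)
        (IsIntegral.isAlgebraic (h2 _ c.2))
      exact ⟨hy.aevalEquiv r, hy.algebraMap_aevalEquiv r⟩⟩
    exact Algebra.IsAlgebraic.trans _ B K
  obtain ⟨E, hE, hm⟩ : ∃ E : IntermediateField ℂ K, Algebra.trdeg E K = 1 ∧ ∀ a ∈ E,
      ∃ r ∈ Algebra.adjoin k (y '' {i}ᶜ), ∃ s ∈ Algebra.adjoin k (y '' {i}ᶜ), a = r / s :=
    ⟨(adjoin k (y '' {i}ᶜ)).restrictScalars ℂ, trdeg_one hy' i, fun a z =>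
      mem_adjoin_iff_div.1 ((mem_restrictScalars ℂ).1 z)⟩
  have hH : ∀ a ∈ E, a ∈ R := fun a z => by
    obtain ⟨r, hr, s, hs, rfl⟩ := hm a z
    rw [div_eq_mul_inv]
    exact mul_mem (hR _ (hT _ (hD hr))) (hI s hs)
  obtain ⟨P, rfl⟩ := exists_pl h hE R (fun e => hb' (e ▸ trivial)) hH
  refine ⟨P, fun a z => hR a (hT a z), Pl.ord_pos_of_inv_notMem _ hb', hor_alg h hE hH
    fun a z => ?_⟩
  obtain ⟨r, hr, s, hs, rfl⟩ := hm a z
  rw [rd_div P (hR _ (hT _ (hD hr))) (hR _ (hT _ (hD hs))) (hI s hs)]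
  exact div_mem (mem_img P (hD hr)) (mem_img P (hD hs))

/-- a valuation ring contains a finitely generated algebra over which the field is algebraic -/
theorem exists_big (h : FF K n) (R : ValuationSubring K) {B : Subalgebra k K} (hB : B.FG)
    (hR : ∀ a ∈ B, a ∈ R) : ∃ B' : Subalgebra k K, B'.FG ∧ B ≤ B' ∧ (∀ a ∈ B', a ∈ R) ∧
      Algebra.IsAlgebraic B' K := by
  classical
  obtain ⟨y, hy, hf⟩ := h
  let z : Fin n → K := fun i => if y i ∈ R then y i else (y i)⁻¹
  have hz : ∀ i, z i ∈ R := fun i => by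
    by_cases e : y i ∈ R
    · simp [z, e]
    · simpa [z, e] using (R.mem_or_inv_mem _).resolve_left e
  have h1 : adjoin ℂ (range y) ≤ adjoin ℂ (range z) := adjoin_le_iff.2 (by
    rintro _ ⟨i, rfl⟩
    have := subset_adjoin ℂ (range z) ⟨i, rfl⟩
    by_cases e : y i ∈ R
    · simpa [z, e] using this
    · simpa [z, e] using this)
  refine ⟨B ⊔ Algebra.adjoin k (range z), hB.sup (Subalgebra.fg_def.2 ⟨_, finite_range z, rfl⟩),
    le_sup_left, ?_, ⟨fun x => ?_⟩⟩
  · have : B ⊔ Algebra.adjoin k (range z) ≤ ({ R.toSubring with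
        algebraMap_mem' := fun c => hR _ (B.algebraMap_mem c) } : Subalgebra k K) :=
      sup_le hR (Algebra.adjoin_le (range_subset_iff.2 hz))
    exact this
  · have h2 : IsAlgebraic (adjoin ℂ (range z)) x :=
      (IsAlgebraic.of_finite (adjoin ℂ (range y)) x).tower_top_of_subalgebra_le
        (A := (adjoin ℂ (range y)).toSubalgebra) (B := (adjoin ℂ (range z)).toSubalgebra) h1
    exact (isAlgebraic_adjoin_iff.1 h2).tower_top_of_subalgebra_le
      (B := (B ⊔ Algebra.adjoin k (range z)).restrictScalars ℂ)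
      (Algebra.adjoin_le fun a z => (le_sup_right : _ ≤ B ⊔ _) (Algebra.subset_adjoin z))

/-- **DIV** -/
theorem div (h : FF K n) {B : Subalgebra k K} (hB : B.FG) {b : K} (hb : b ∈ B) (b0 : b ≠ 0)
    (hi : b⁻¹ ∉ B) : ∃ P : Pl K, (∀ a ∈ B, a ∈ P.ring) ∧ 0 < P.ord b := by
  obtain ⟨R, hR, hb'⟩ := exists_val (T := B.toSubring) hb b0 hi
  obtain ⟨B', h1, h2, h3, h4⟩ := exists_big h R hB hR
  obtain ⟨P, h5, h6, -⟩ := div_alg h h1 h4 (h2 hb) b0 fun z => hb' (h3 _ z)
  exact ⟨P, fun a z => h5 a (h2 z), h6⟩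

end Vale.Agent.P287D.On
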