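import Vale.Agent.P287D.On.Div

/-!
# P287D, block ON: integrality and centres (**VAL**, **APX**, **CTR**)
-/

open Set IntermediateField Polynomial
open Vale.Agent.P297 (Place)
open Vale.Agent.P297Z

noncomputable section

namespace Vale.Agent.P287D.On

theorem int_of_mem {R K : Type} [CommRing R] [Nontrivial R] [Field K] [Algebra R K] {f : K}
    (h : f ∈ Algebra.adjoin R {f⁻¹}) : IsIntegral R f := by
  by_cases f0 : f = 0
  · rw [f0]; exact isIntegral_zero
  let := invertibleOfNonzero (inv_ne_zero f0)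
  obtain ⟨p, h1, h2⟩ := Algebra.exists_aeval_invOf_eq_zero_of_idealMap_adjoin_sup_span_eq_top f⁻¹
    (⊥ : Ideal R) bot_ne_top (top_unique (le_trans (Ideal.span_singleton_eq_top.2
      (IsUnit.of_mul_eq_one ⟨f, h⟩ (Subtype.ext (inv_mul_cancel₀ f0)))).ge le_sup_right))
  exact ⟨p, by simpa [Monic, sub_eq_zero] using h1, by simpa [aeval_def] using h2⟩

variable {K : Type} [Field K] [Algebra ℂ K] {n : ℕ}

theorem rd_add (P : Pl K) {f g : K} (h : f ∈ P.ring) (h' : g ∈ P.ring) :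
    P.rd (f + g) = P.rd f + P.rd g := by
  rw [rd_eq P h, rd_eq P h', rd_eq P (add_mem h h'), ← map_add]
  rfl

theorem nu_iff (P : Pl K) {f : K} : f ∈ P.ring.nonunits ↔ f = 0 ∨ 0 < P.ord f := by
  rw [ValuationSubring.mem_nonunits_iff_or]
  refine or_congr_right' fun h => ?_
  rw [← Pl.ord_nonneg_iff _ (inv_ne_zero h), Pl.ord_inv]
  omega

variable {k : Type} [Field k] [Algebra ℂ k] [Algebra k K] [IsScalarTower ℂ k K]

omit [Algebra ℂ K] [Algebra ℂ k] [IsScalarTower ℂ k K] in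
theorem fg_adj {B : Subalgebra k K} (hB : B.FG) {S : Set K} (hS : S.Finite) :
    ((Algebra.adjoin B S).restrictScalars k).FG := by
  obtain ⟨T, hT, rfl⟩ := Subalgebra.fg_def.1 hB
  exact Subalgebra.fg_def.2 ⟨T ∪ S, hT.union hS, Algebra.adjoin_union_eq_adjoin_adjoin k T S⟩

/-- **VAL** -/
theorem val (h : FF K n) {B : Subalgebra k K} (hB : B.FG) {f : K} (hf : ¬ IsIntegral B f) :
    ∃ P : Pl K, (∀ a ∈ B, a ∈ P.ring) ∧ f ∉ P.ring := by
  have f0 : f ≠ 0 := fun e => hf (e ▸ isIntegral_zero)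
  obtain ⟨P, h1, h2⟩ := div h (fg_adj hB (finite_singleton f⁻¹)) (b := f⁻¹)
    (Algebra.subset_adjoin (R := B) rfl) (inv_ne_zero f0) fun e => hf (int_of_mem (by
      rwa [inv_inv] at e))
  refine ⟨P, fun a z => h1 a ((Algebra.adjoin B {f⁻¹}).algebraMap_mem ⟨a, z⟩), fun e => ?_⟩
  have := Pl.ord_nonneg_of_mem _ e
  rw [Pl.ord_inv] at h2
  omega

/-- **VAL** with a prime divisor of the normalisation -/
theorem val_alg (h : FF K n) {B : Subalgebra k K} (hB : B.FG) (ha : Algebra.IsAlgebraic B K)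
    {f : K} (hf : ¬ IsIntegral B f) : ∃ P : Pl K, (∀ a ∈ B, a ∈ P.ring) ∧ f ∉ P.ring ∧
      Algebra.IsAlgebraic (img P B) P.κ := by
  have f0 : f ≠ 0 := fun e => hf (e ▸ isIntegral_zero)
  have hle : ∀ a ∈ B, a ∈ (Algebra.adjoin B {f⁻¹}).restrictScalars k := fun a z =>
    (Algebra.adjoin B {f⁻¹}).algebraMap_mem ⟨a, z⟩
  obtain ⟨P, h1, h2, h3⟩ := div_alg h (fg_adj hB (finite_singleton f⁻¹))
    ⟨fun x => (ha.1 x).tower_top_of_subalgebra_le hle⟩ (b := f⁻¹)
    (Algebra.subset_adjoin (R := B) rfl) (inv_ne_zero f0) fun e => hf (int_of_mem (by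
      rwa [inv_inv] at e))
  refine ⟨P, fun a z => h1 a (hle a z), fun e => ?_, ⟨fun x => ?_⟩⟩
  · have := Pl.ord_nonneg_of_mem _ e
    rw [Pl.ord_inv] at h2
    omega
  have h4 : img P ((Algebra.adjoin B {f⁻¹}).restrictScalars k) ≤ img P B := by
    refine adjoin_le_iff.2 ?_
    rintro _ ⟨a, z, rfl⟩
    change a ∈ Algebra.adjoin B {f⁻¹} at z
    induction z using Algebra.adjoin_induction with
    | mem x hx =>
      obtain rfl : x = f⁻¹ := hx
      rw [(rd_zero_iff P (h1 _ (Algebra.subset_adjoin (R := B) rfl))).2 (Or.inr h2)]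
      exact zero_mem _
    | algebraMap r => exact mem_img P r.2
    | add x y hx hy a b =>
      rw [rd_add P (h1 _ hx) (h1 _ hy)]
      exact add_mem a b
    | mul x y hx hy a b =>
      rw [rd_mul P (h1 _ hx) (h1 _ hy)]
      exact mul_mem a b
  exact alg_mono Subtype.val_injective Subtype.val_injective (fun r => ⟨⟨r, h4 r.2⟩, rfl⟩) (h3.1 x)

/-- transcendental functions have horizontal poles -/
theorem hor_pole (h : FF K n) {L : IntermediateField ℂ K} {f : K} (hf : Transcendental L f) :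
    ∃ P : Pl K, Hor L P ∧ f ∉ P.ring := by
  obtain ⟨P, h1, h2⟩ := val h (k := L) Subalgebra.fg_bot (f := f) fun e => hf
    (alg_mono Subtype.val_injective Subtype.val_injective (fun r => Algebra.mem_bot.1 r.2)
      e.isAlgebraic)
  exact ⟨P, fun a z => h1 a (Subalgebra.algebraMap_mem _ (⟨a, z⟩ : L)), h2⟩

/-- **APX**: every valuation has the centre of a divisorial one -/
theorem apx (h : FF K n) (V : ValuationSubring K) {B : Subalgebra k K} (hB : B.FG)
    (hV : ∀ a ∈ B, a ∈ V) (h0 : ∃ a ∈ B, a⁻¹ ∉ V) : ∃ P : Pl K, (∀ a ∈ B, a ∈ P.ring) ∧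
      ∀ a ∈ B, (a⁻¹ ∈ P.ring ↔ a⁻¹ ∈ V) := by
  classical
  let j : B →+* V := B.val.toRingHom.codRestrict V fun a => hV a a.2
  let ρ : B →+* IsLocalRing.ResidueField V := (IsLocalRing.residue V).comp j
  have hρ : ∀ a : B, a ∈ RingHom.ker ρ ↔ (a : K) = 0 ∨ (a : K)⁻¹ ∉ V := fun a => by
    rw [← ValuationSubring.mem_nonunits_iff_or, RingHom.mem_ker]
    exact (IsLocalRing.residue_eq_zero_iff _).trans
      (ValuationSubring.coe_mem_nonunits_iff (a := j a)).symm
  have hp : (RingHom.ker ρ).IsPrime := RingHom.ker_isPrime ρ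
  generalize RingHom.ker ρ = q at hρ hp
  have : Algebra.FiniteType k B := (Subalgebra.fg_iff_finiteType B).1 hB
  have : IsNoetherianRing B := Algebra.FiniteType.isNoetherianRing k B
  obtain ⟨G, hG⟩ := IsNoetherian.noetherian q
  have hq : ∀ g ∈ G, g ∈ q := fun g z => hG ▸ Submodule.subset_span z
  obtain ⟨b, hb, hm⟩ := G.exists_max_image (fun g => V.valuation (g : K)) (by
    obtain ⟨a, z, w⟩ := h0
    refine Finset.nonempty_iff_ne_empty.2 fun e => w ?_
    have := (hρ ⟨a, z⟩).2 (Or.inr w)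
    rw [← hG, e, Finset.coe_empty, Submodule.span_empty, Submodule.mem_bot] at this
    rw [show a = 0 from congrArg Subtype.val this, inv_zero]
    exact zero_mem _)
  have b0 : (b : K) ≠ 0 := fun e => by
    obtain ⟨a, z, w⟩ := h0
    have h1 : q ≤ ⊥ := hG ▸ Submodule.span_le.2 fun g z => by
      have := hm g z
      rw [e, map_zero, le_zero_iff, map_eq_zero] at this
      exact Subtype.ext this
    refine w ?_
    rw [show a = 0 from congrArg Subtype.val (h1 ((hρ ⟨a, z⟩).2 (Or.inr w))), inv_zero]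
    exact zero_mem _
  have : IsDomain (B ⧸ q) := (Ideal.Quotient.isDomain_iff_prime q).2 hp
  have : Nontrivial (B ⧸ q) := Ideal.Quotient.nontrivial_iff.2 hp.ne_top
  have : FaithfulSMul k (B ⧸ q) := (faithfulSMul_iff_algebraMap_injective _ _).2
    (algebraMap k (B ⧸ q)).injective
  obtain ⟨s, hs⟩ := exists_isTranscendenceBasis k (B ⧸ q)
  choose z hz using fun i : s => Ideal.Quotient.mk_surjective (i : B ⧸ q)
  have e1 : ∀ p : MvPolynomial s k, Ideal.Quotient.mk q (MvPolynomial.aeval z p) =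
      MvPolynomial.aeval (Subtype.val : s → B ⧸ q) p := fun p => by
    rw [← Ideal.Quotient.mkₐ_eq_mk k, ← AlgHom.comp_apply, MvPolynomial.comp_aeval]
    exact congrArg (MvPolynomial.aeval · p) (funext hz)
  have e2 : ∀ p : MvPolynomial s k, ((MvPolynomial.aeval z p : B) : K) =
      MvPolynomial.aeval (fun i => (z i : K)) p := fun p => by
    rw [← Subalgebra.val_apply, ← AlgHom.comp_apply, MvPolynomial.comp_aeval]
    rfl
  have hD : ∀ c ∈ Algebra.adjoin k (range fun i => (z i : K)), c ∈ V ∧ c⁻¹ ∈ V := fun c hc => by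
    rw [Algebra.adjoin_range_eq_range_aeval] at hc
    obtain ⟨p, rfl⟩ := hc
    change MvPolynomial.aeval _ p ∈ V ∧ (MvPolynomial.aeval _ p)⁻¹ ∈ V
    rw [← e2]
    refine ⟨hV _ (Subtype.prop _), by_contra fun w => w ?_⟩
    have h1 := Ideal.Quotient.eq_zero_iff_mem.2 ((hρ _).2 (Or.inr w))
    rw [e1] at h1
    rw [(injective_iff_map_eq_zero _).1 hs.1 p h1, map_zero, ZeroMemClass.coe_zero, inv_zero]
    exact zero_mem _
  obtain ⟨L, hL, hk, hz'⟩ : ∃ L : IntermediateField ℂ K, (∀ a ∈ L, a ∈ V) ∧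
      (∀ a, algebraMap k K a ∈ L) ∧ ∀ p : MvPolynomial s k, (MvPolynomial.aeval z p : B).1 ∈ L := by
    refine ⟨(adjoin k (range fun i => (z i : K))).restrictScalars ℂ, fun a w => ?_,
      fun a => (mem_restrictScalars ℂ).2 (IntermediateField.algebraMap_mem _ a),
      fun p => (mem_restrictScalars ℂ).2 (algebra_adjoin_le_adjoin _ _ ?_)⟩
    · obtain ⟨r, hr, s, hs, rfl⟩ := mem_adjoin_iff_div.1 ((mem_restrictScalars ℂ).1 w)
      rw [div_eq_mul_inv]
      exact mul_mem (hD r hr).1 (hD s hs).2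
    · rw [e2, Algebra.adjoin_range_eq_range_aeval]
      exact ⟨p, rfl⟩
  obtain ⟨T, hT, eT⟩ := Subalgebra.fg_def.1 hB
  obtain ⟨C, hC, h1, h2, h3⟩ : ∃ C : Subalgebra L K, C.FG ∧ (∀ a ∈ B, a ∈ C) ∧
      (∀ g ∈ G, (g : K) / b ∈ C) ∧ ∀ a ∈ C, a ∈ V := by
    refine ⟨Algebra.adjoin L (T ∪ (fun g : B => (g : K) / b) '' G), Subalgebra.fg_def.2
      ⟨_, hT.union (G.finite_toSet.image _), rfl⟩, ?_,
      fun g w => Algebra.subset_adjoin (Or.inr ⟨g, w, rfl⟩), ?_⟩
    · have : Algebra.adjoin k T ≤ ({ (Algebra.adjoin L (T ∪ (fun g : B => (g : K) / b) '' G)).toSubsemiring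
          with algebraMap_mem' := fun a => Subalgebra.algebraMap_mem (Algebra.adjoin L _) ⟨_, hk a⟩ } :
          Subalgebra k K) := Algebra.adjoin_le fun a w => Algebra.subset_adjoin (R := L) (Or.inl w)
      exact fun a w => this (eT.ge w)
    · have : Algebra.adjoin L (T ∪ (fun g : B => (g : K) / b) '' G) ≤ ({ V.toSubring with
          algebraMap_mem' := fun c => hL _ c.2 } : Subalgebra L K) := by
        refine Algebra.adjoin_le ?_
        rintro _ (w | ⟨g, w, rfl⟩)
        · exact hV _ (eT.le (Algebra.subset_adjoin w))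
        · refine (V.valuation_le_one_iff _).1 ?_
          rw [map_div₀]
          exact div_le_one_of_le₀ (hm g w) zero_le
      exact this
  obtain ⟨P, h4, h5⟩ := div h hC (h1 _ b.2) b0 fun w =>
    ((hρ b).1 (hq b hb)).elim b0 fun u => u (h3 _ w)
  have h6 : ∀ a ∈ q, (a : K) ∈ P.ring.nonunits := fun a w => by
    rw [← hG] at w
    induction w using Submodule.span_induction with
    | mem g w =>
      rw [← div_mul_cancel₀ (g : K) b0]
      exact P.ring.mem_nonunits_iff.2 (by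
        rw [map_mul]
        exact mul_lt_one_of_nonneg_of_lt_one_right
          ((P.ring.valuation_le_one_iff _).2 (h4 _ (h2 g w))) zero_le
          (P.ring.mem_nonunits_iff.1 ((nu_iff P).2 (Or.inr h5))))
    | zero => exact zero_mem _
    | add x y _ _ a b => exact add_mem a b
    | smul c x _ a =>
      exact P.ring.mem_nonunits_iff.2 (by
        rw [smul_eq_mul, MulMemClass.coe_mul, map_mul]
        exact mul_lt_one_of_nonneg_of_lt_one_right
          ((P.ring.valuation_le_one_iff _).2 (h4 _ (h1 _ c.2))) zero_le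
          (P.ring.mem_nonunits_iff.1 a))
  refine ⟨P, fun a w => h4 a (h1 a w), fun a w => ⟨fun u => by_contra fun v => ?_, fun u => ?_⟩⟩
  · refine (P.ring.mem_nonunits_iff_or.1 (h6 _ ((hρ ⟨a, w⟩).2 (Or.inr v)))).elim
      (fun e => v ?_) fun e => e u
    rw [show a = 0 from e, inv_zero]
    exact zero_mem _
  by_cases a0 : a = 0
  · rw [a0, inv_zero]; exact zero_mem _
  have h7 : Ideal.Quotient.mk q ⟨a, w⟩ ≠ 0 := fun e =>
    ((hρ _).1 (Ideal.Quotient.eq_zero_iff_mem.1 e)).elim a0 fun v => v u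
  obtain ⟨⟨r, hr⟩, r0, c, hc⟩ := (hs.isAlgebraic.1 _).exists_nonzero_dvd
    (mem_nonZeroDivisors_of_ne_zero h7)
  obtain ⟨c, rfl⟩ := Ideal.Quotient.mk_surjective c
  rw [Algebra.adjoin_range_eq_range_aeval] at hr
  obtain ⟨p, rfl⟩ := hr
  have h8 : MvPolynomial.aeval z p - ⟨a, w⟩ * c ∈ q := by
    rw [← Ideal.Quotient.eq, e1, map_mul]
    exact hc
  have h9 : ((MvPolynomial.aeval z p : B) : K) ∉ P.ring.nonunits := fun v =>
    (P.ring.mem_nonunits_iff_or.1 v).elim (fun e => r0 (Subtype.ext (by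
      change MvPolynomial.aeval _ p = 0
      rw [← e1, show MvPolynomial.aeval z p = 0 from Subtype.ext e, map_zero])))
      fun e => e (h4 _ (C.algebraMap_mem ⟨_, inv_mem (hz' p)⟩))
  refine by_contra fun v => h9 ?_
  rw [← sub_add_cancel (MvPolynomial.aeval z p) (⟨a, w⟩ * c)]
  refine add_mem (h6 _ h8) (P.ring.mem_nonunits_iff.2 ?_)
  rw [MulMemClass.coe_mul, map_mul]
  exact mul_lt_one_of_nonneg_of_lt_one_left zero_le
    (P.ring.mem_nonunits_iff.1 (P.ring.mem_nonunits_iff_or.2 (Or.inr v)))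
    ((P.ring.valuation_le_one_iff _).2 (h4 _ (h1 _ c.2)))

/-- **CTR**: non zero primes are centres -/
theorem ctr (h : FF K n) {B : Subalgebra k K} (hB : B.FG) (q : Ideal B) [hq : q.IsPrime]
    (h0 : q ≠ ⊥) : ∃ P : Pl K, (∀ a ∈ B, a ∈ P.ring) ∧
      ∀ a : B, (a ∈ q ↔ (a : K) = 0 ∨ 0 < P.ord a) := by
  let q' : Ideal B.toSubring := q
  have : q'.IsPrime := hq
  obtain ⟨V, hV⟩ := (LocalSubring.ofPrime B.toSubring q').exists_le_valuationSubring
  have h1 : ∀ a ∈ B, a ∈ V := fun a w => hV.1 (LocalSubring.le_ofPrime B.toSubring q' w)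
  have h2 : ∀ a : B, a ∈ q ↔ (a : K) ∈ V.nonunits := fun a => by
    let a' : (LocalSubring.ofPrime B.toSubring q').toSubring := algebraMap B.toSubring _ a
    have h3 := IsLocalization.AtPrime.to_map_mem_maximal_iff
      (LocalSubring.ofPrime B.toSubring q').toSubring q' a
    have := hV.2
    refine h3.symm.trans (Iff.trans ?_
      (V.coe_mem_nonunits_iff (a := ⟨a.1, h1 a a.2⟩)).symm)
    rw [IsLocalRing.mem_maximalIdeal, IsLocalRing.mem_maximalIdeal, mem_nonunits_iff,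
      mem_nonunits_iff]
    exact (isUnit_map_iff (Subring.inclusion hV.1) a').symm.not
  obtain ⟨P, h3, h4⟩ := apx h V hB h1 (by
    obtain ⟨a, w, a0⟩ := Submodule.exists_mem_ne_zero_of_ne_bot h0
    exact ⟨a, a.2, (V.mem_nonunits_iff_or.1 ((h2 a).1 w)).resolve_left fun e => a0 (Subtype.ext e)⟩)
  refine ⟨P, h3, fun a => ?_⟩
  rw [h2, ← nu_iff, ValuationSubring.mem_nonunits_iff_or, ValuationSubring.mem_nonunits_iff_or,
    h4 a a.2]

end Vale.Agent.P287D.On
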