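import Vale.Agent.P287D.Gm.Ffs
import Vale.Agent.P287D.Pb.Abh

/-!
# P287D, block ON: places over a subfield of codimension one
-/

open Set IntermediateField
open Vale.Agent.P297 (Place)
open Vale.Agent.P297Z

noncomputable section

namespace Vale.Agent.P287D.On

section ded

variable {C K : Type} [CommRing C] [IsDedekindDomain C] [Field K] [Algebra C K]
  [IsFractionRing C K]

theorem exists_ht (R : ValuationSubring K) (hR : R ≠ ⊤) (h : ∀ c, algebraMap C K c ∈ R) :
    ∃ v : IsDedekindDomain.HeightOneSpectrum C, v.valuationSubringAtPrime K = R ∧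
      ∀ c, c ∈ v.asIdeal ↔ algebraMap C K c ∈ R.nonunits := by
  let φ : C →+* R := (algebraMap C K).codRestrict R h
  have hm : ∀ c, c ∈ (IsLocalRing.maximalIdeal R).comap φ ↔ algebraMap C K c ∈ R.nonunits :=
    fun c => by
      rw [Ideal.mem_comap, ← ValuationSubring.coe_mem_nonunits_iff]
      rfl
  have hi : ∀ c, c ∉ (IsLocalRing.maximalIdeal R).comap φ → (algebraMap C K c)⁻¹ ∈ R := by
    intro c hc
    rw [hm, ValuationSubring.mem_nonunits_iff_or, not_or, not_not] at hc
    exact hc.2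
  have hb : (IsLocalRing.maximalIdeal R).comap φ ≠ ⊥ := by
    intro e
    refine hR (eq_top_iff.2 fun x _ => ?_)
    obtain ⟨a, b, hb, rfl⟩ := IsFractionRing.div_surjective (A := C) x
    rw [div_eq_mul_inv]
    refine mul_mem (h a) (hi b ?_)
    rw [e]
    exact nonZeroDivisors.ne_zero hb
  refine ⟨⟨_, inferInstance, hb⟩, ValuationSubring.eq_of_le_of_ne_top _ ?_ hR, hm⟩
  rintro x ⟨a, s, hs, rfl⟩
  exact mul_mem (h a) (hi s hs)

theorem dvr_of_ded (R : ValuationSubring K) (hR : R ≠ ⊤) (h : ∀ c, algebraMap C K c ∈ R) :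
    IsDiscreteValuationRing R := by
  obtain ⟨v, rfl, -⟩ := exists_ht R hR h
  exact IsLocalization.AtPrime.isDiscreteValuationRing_of_dedekind_domain C v.ne_bot _

theorem fin_of_ded (f : K) :
    {R : ValuationSubring K | (∀ c, algebraMap C K c ∈ R) ∧ f ∉ R}.Finite := by
  obtain ⟨a, b, hb, rfl⟩ := IsFractionRing.div_surjective (A := C) f
  have h0 : Ideal.span {b} ≠ 0 := by simpa using nonZeroDivisors.ne_zero hb
  refine ((Ideal.finite_factors h0).image fun v => v.valuationSubringAtPrime K).subset ?_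
  rintro R ⟨h, hf⟩
  obtain ⟨v, hv, hm⟩ := exists_ht R (fun e => hf (e ▸ trivial)) h
  refine ⟨v, ?_, hv⟩
  rw [mem_ofPred, Ideal.dvd_span_singleton, hm, ValuationSubring.mem_nonunits_iff_or]
  refine Or.inr fun hi => hf ?_
  rw [div_eq_mul_inv]
  exact mul_mem (h a) hi

end ded

section cur

variable {k K : Type} [Field k] [CharZero k] [Field K] [Algebra k K]

open scoped IntermediateField.algebraAdjoinAdjoin in
theorem exists_ded {x : K} (hx : Transcendental k x) [FiniteDimensional k⟮x⟯ K] :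
    ∃ C : Subring K, IsDedekindDomain C ∧ IsFractionRing C K ∧ ∀ R : ValuationSubring K,
      (∀ a, algebraMap k K a ∈ R) → x ∈ R → ∀ c : C, algebraMap C K c ∈ R := by
  have e := Polynomial.algEquivOfTranscendental k x hx
  have : IsPrincipalIdealRing (Algebra.adjoin k {x}) :=
    IsPrincipalIdealRing.of_surjective e.toRingEquiv.toRingHom e.surjective
  have : CharZero k⟮x⟯ := algebraRat.charZero _
  refine ⟨(integralClosure (Algebra.adjoin k {x}) K).toSubring,
    integralClosure.isDedekindDomain (Algebra.adjoin k {x}) k⟮x⟯ K,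
    IsIntegralClosure.isFractionRing_of_finite_extension (Algebra.adjoin k {x}) k⟮x⟯ K
      (integralClosure (Algebra.adjoin k {x}) K), fun R hk hR c => ?_⟩
  have h1 : ∀ a : Algebra.adjoin k {x}, (a : K) ∈ R := fun a => by
    have : Algebra.adjoin k {x} ≤ ({ R.toSubring with algebraMap_mem' := hk } : Subalgebra k K) :=
      Algebra.adjoin_le (singleton_subset_iff.2 hR)
    exact this a.2
  let : Algebra (Algebra.adjoin k {x}) R :=
    ((algebraMap (Algebra.adjoin k {x}) K).codRestrict R h1).toAlgebra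
  have : IsScalarTower (Algebra.adjoin k {x}) R K := IsScalarTower.of_algebraMap_eq fun _ => rfl
  have h2 : IsIntegral R (c : K) := IsIntegral.tower_top (R := Algebra.adjoin k {x}) c.2
  obtain ⟨y, hy⟩ := IsIntegrallyClosed.isIntegral_iff.1 h2
  change (c : K) ∈ R
  rw [← hy]
  exact y.2

omit [CharZero k] in
theorem fin_inv {x : K} [h : FiniteDimensional k⟮x⟯ K] : FiniteDimensional k⟮x⁻¹⟯ K := by
  have : k⟮x⁻¹⟯ = k⟮x⟯ := le_antisymm
    (adjoin_simple_le_iff.2 (inv_mem (mem_adjoin_simple_self k x)))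
    (adjoin_simple_le_iff.2 (by simpa using inv_mem (mem_adjoin_simple_self k x⁻¹)))
  rw [this]
  exact h

theorem cur_dvr {x : K} (hx : Transcendental k x) [FiniteDimensional k⟮x⟯ K]
    (R : ValuationSubring K) (hR : R ≠ ⊤) (hk : ∀ a, algebraMap k K a ∈ R) :
    IsDiscreteValuationRing R := by
  rcases R.mem_or_inv_mem x with h | h
  · obtain ⟨C, _, _, hC⟩ := exists_ded hx
    exact dvr_of_ded (C := C) R hR (hC R hk h)
  · have := fin_inv (k := k) (x := x)
    obtain ⟨C, _, _, hC⟩ := exists_ded (k := k) (x := x⁻¹) fun a => hx (IsAlgebraic.inv_iff.1 a)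
    exact dvr_of_ded (C := C) R hR (hC R hk h)

theorem cur_fin {x : K} (hx : Transcendental k x) [FiniteDimensional k⟮x⟯ K] (f : K) :
    {R : ValuationSubring K | (∀ a, algebraMap k K a ∈ R) ∧ f ∉ R}.Finite := by
  have := fin_inv (k := k) (x := x)
  obtain ⟨C, _, _, hC⟩ := exists_ded hx
  obtain ⟨C', _, _, hC'⟩ := exists_ded (k := k) (x := x⁻¹) fun a => hx (IsAlgebraic.inv_iff.1 a)
  refine ((fin_of_ded (C := C) f).union (fin_of_ded (C := C') f)).subset ?_
  rintro R ⟨hk, hf⟩
  exact (R.mem_or_inv_mem x).imp (fun h => ⟨hC R hk h, hf⟩) fun h => ⟨hC' R hk h, hf⟩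

end cur

variable {K : Type} [Field K] [Algebra ℂ K] {n : ℕ}

theorem ess (h : FF K n) (F : Type) [Field F] [Algebra ℂ F] [Algebra F K]
    [IsScalarTower ℂ F K] : Algebra.EssFiniteType F K := by
  have := h.ess
  exact Algebra.EssFiniteType.of_comp ℂ F K

theorem fin_of_alg (h : FF K n) (F : Type) [Field F] [Algebra ℂ F] [Algebra F K]
    [IsScalarTower ℂ F K] [Algebra.IsAlgebraic F K] : FiniteDimensional F K := by
  have := ess h F
  exact Algebra.finite_of_essFiniteType_of_isAlgebraic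

theorem exists_x (h : FF K n) {E : IntermediateField ℂ K} (hE : Algebra.trdeg E K = 1) :
    ∃ x : K, Transcendental E x ∧ FiniteDimensional E⟮x⟯ K := by
  obtain ⟨y, hy⟩ := Gm.exists_basis (n := 1) E K (by simpa using hE)
  have h1 := hy.isAlgebraic_field
  rw [show range y = {y 0} by ext; simp [eq_comm]] at h1
  have := ess h E
  have := Algebra.EssFiniteType.of_comp E E⟮y 0⟯ K
  exact ⟨y 0, hy.1.transcendental 0, Algebra.finite_of_essFiniteType_of_isAlgebraic⟩

theorem rd_eq (P : Pl K) {f : K} (h : f ∈ P.ring) : P.rd f = Gm.rdA P ⟨f, h⟩ := dif_pos h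

/-- the residue map on a horizontal subfield -/
def rE (P : Pl K) (E : IntermediateField ℂ K) (h : Hor E P) : E →ₐ[ℂ] P.κ :=
  { (Gm.rdA P).comp ((algebraMap E K).codRestrict P.ring fun a => h a a.2) with
    commutes' := Gm.rdA_const P }

theorem rE_apply (P : Pl K) {E : IntermediateField ℂ K} (h : Hor E P) (a : E) :
    rE P E h a = P.rd a :=
  (rd_eq P (h a a.2)).symm

/-- valuation rings over a subfield of codimension one are divisorial -/
theorem exists_pl (h : FF K n) {E : IntermediateField ℂ K} (hE : Algebra.trdeg E K = 1)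
    (R : ValuationSubring K) (hR : R ≠ ⊤) (hk : ∀ a ∈ E, a ∈ R) : ∃ P : Pl K, P.ring = R := by
  obtain ⟨x, hx, _⟩ := exists_x h hE
  have : CharZero E := algebraRat.charZero _
  have hd := cur_dvr hx R hR fun a => hk a a.2
  have hc : ∀ c, algebraMap ℂ K c ∈ R := fun c => hk _ (E.algebraMap_mem c)
  refine ⟨⟨⟨R, hd⟩, hc, ?_⟩, rfl⟩
  let := (cst ⟨R, hd⟩ hc).toAlgebra
  refine le_antisymm (Pb.res_lt hR hc fun _ => rfl) ?_
  rw [← trdeg_add_eq ℂ E (A := K), hE]
  let ρ : E →ₐ[ℂ] IsLocalRing.ResidueField R :=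
    { (IsLocalRing.residue R).comp ((algebraMap E K).codRestrict R fun a => hk a a.2) with
      commutes' := fun _ => rfl }
  exact add_le_add_left (trdeg_le_of_injective ρ ρ.toRingHom.injective) _

theorem hor_fin (h : FF K n) {E : IntermediateField ℂ K} (hE : Algebra.trdeg E K = 1) (f : K) :
    {P : Pl K | Hor E P ∧ P.ord f ≠ 0}.Finite := by
  obtain ⟨x, hx, _⟩ := exists_x h hE
  have : CharZero E := algebraRat.charZero _
  refine (((cur_fin hx f).union (cur_fin hx f⁻¹)).preimage (f := fun P : Pl K => P.ring)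
    fun _ _ _ _ e => Pl.ext' e).subset ?_
  rintro P ⟨hP, hf⟩
  by_contra e
  simp only [mem_preimage, mem_union, mem_ofPred, not_or, not_and, not_not] at e
  exact hf (Pl.ord_unit _ (e.1 fun a => hP a a.2) (e.2 fun a => hP a a.2))

/-- equal finite transcendence degrees -/
theorem alg_of_trdeg {F : Type} [Field F] [Algebra ℂ F] [Algebra F K] [IsScalarTower ℂ F K]
    (h : Algebra.trdeg ℂ K < Cardinal.aleph0) (e : Algebra.trdeg ℂ K ≤ Algebra.trdeg ℂ F) :
    Algebra.IsAlgebraic F K := by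
  rw [← trdeg_eq_zero_iff]
  have h1 := trdeg_add_eq ℂ F (A := K)
  have h2 : Algebra.trdeg ℂ F < Cardinal.aleph0 := (self_le_add_right _ _).trans_lt (h1 ▸ h)
  refine le_antisymm ?_ zero_le
  rw [← Cardinal.add_le_add_iff_of_lt_aleph0 h2, zero_add, add_comm, h1]
  exact e

theorem hor_alg (h : FF K n) {E : IntermediateField ℂ K} (hE : Algebra.trdeg E K = 1) {P : Pl K}
    (hP : Hor E P) {F : IntermediateField ℂ P.κ} (hF : ∀ a ∈ E, P.rd a ∈ F) :
    Algebra.IsAlgebraic F P.κ := by
  refine alg_of_trdeg (Pb.κ_fin (Pb.ff_fin h) P) ?_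
  let ρ : E →ₐ[ℂ] F := (rE P E hP).codRestrict F.toSubalgebra fun a => by
    rw [rE_apply]; exact hF a a.2
  refine le_trans ?_ (trdeg_le_of_injective ρ ρ.toRingHom.injective)
  have h1 : Algebra.trdeg ℂ P.κ + 1 = Algebra.trdeg ℂ K := P.dvl
  rw [← trdeg_add_eq ℂ E (A := K), hE] at h1
  exact (Cardinal.add_le_add_iff_of_lt_aleph0 Cardinal.one_lt_aleph0).1 h1.le

end Vale.Agent.P287D.On
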