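import Vale.Agent.P287D.On.Cen

/-!
# P287D, block ON: the ideal of a centre (**CEN**), lifting of points (**LIFT**)
-/

open Set
open Vale.Agent.P297Z

noncomputable section

namespace Vale.Agent.P287D.On

variable {K : Type} [Field K] [Algebra ℂ K] {n : ℕ} {β γ Λ Λ' A G : BD K} {P Q R : Pl K}
  {f g b w : K} {s u : Finset K} {m : ℕ}

theorem mem_of_int {B : Subalgebra ℂ K} {V : ValuationSubring K} (h : ∀ a ∈ B, a ∈ V)
    (hb : IsIntegral B b) : b ∈ V := by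
  let : Algebra B V := (B.val.toRingHom.codRestrict V fun a => h a a.2).toAlgebra
  have : IsScalarTower B V K := .of_algebraMap_eq fun _ => rfl
  obtain ⟨y, rfl⟩ := IsIntegrallyClosed.isIntegral_iff.1 (hb.tower_top (A := V))
  exact y.2

theorem adjoin_le_val {V : ValuationSubring K} (hc : ∀ c, algebraMap ℂ K c ∈ V) {S : Set K}
    (h : ∀ a ∈ S, a ∈ V) : ∀ a ∈ Algebra.adjoin ℂ S, a ∈ V :=
  (Algebra.adjoin_le h : _ ≤ ({ V.toSubring with algebraMap_mem' := hc } : Subalgebra ℂ K))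

/-- every valuation has a centre in a chart -/
theorem exists_chV (hK : FF K n) (h : Nz s) {V : ValuationSubring K}
    (hc : ∀ c, algebraMap ℂ K c ∈ V) : ∃ f ∈ s, f ≠ 0 ∧ ∀ a ∈ Af (mx s) f, a ∈ V := by
  obtain ⟨g, hg, g0⟩ := h
  obtain ⟨f, hf, hm⟩ := s.exists_max_image V.valuation ⟨g, hg⟩
  have f0 : f ≠ 0 := fun e => g0 (by simpa [e] using hm g hg)
  refine ⟨f, hf, f0, fun a z => mem_of_int (adjoin_le_val hc ?_) (int_Af hK hf f0 a z)⟩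
  rintro _ ⟨g, hg, rfl⟩
  refine (V.valuation_le_one_iff _).1 ?_
  rw [map_div₀]
  exact div_le_one_of_le₀ (hm g hg) zero_le

theorem ch_of_le (hf : f ∈ s) (f0 : f ≠ 0) (h : ∀ a ∈ Af (mx s) f, a ∈ P.ring) : Ch (mx s) f P :=
  ch_of hf f0 fun _ hg => h _ (Bf_le f0 (mem_Bf hg))

theorem pos_iff (b0 : b ≠ 0) : 0 < P.ord b ↔ b⁻¹ ∉ P.ring := by
  rw [← Pl.ord_nonneg_iff _ (inv_ne_zero b0), Pl.ord_inv]
  omega

theorem ne_of_pos (h : 0 < P.ord b) : b ≠ 0 := fun e => by simp [e] at h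

/-- **LIFT**, with the same centre on `V Λ` -/
theorem lift' (hK : FF K n) (hΛ : Smp Λ) (hA : A ∈ Car K) (h : CLe Λ Q P) :
    ∃ R, CLe Λ R Q ∧ CLe A R P := by
  obtain ⟨s, h1, hs⟩ := hΛ.exists_ampOn
  obtain ⟨u, hu, d⟩ := Car.exists_dsc hA
  rw [hs.cle_iff] at h
  obtain ⟨f, hf, c⟩ := exists_ch ⟨1, h1, one_ne_zero⟩ Q
  obtain ⟨V, v1, v2, v3⟩ := exists_spec (c.of_cle h).mem c.mem (c.pos h)
  obtain ⟨g, hg, g0, v4⟩ := exists_chV hK hu fun c => v2 _ (Subalgebra.algebraMap_mem _ c)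
  obtain ⟨R, r1, r2⟩ := apx' hK v1 ((fg_Af hK hf c.ne).sup (fg_Af hK hg g0))
    (sup_le v2 v4 : _ ≤ ({ V.toSubring with
      algebraMap_mem' := fun c => v2 _ (Subalgebra.algebraMap_mem _ c) } : Subalgebra ℂ K))
  have l1 : Af (mx s) f ≤ Af (mx s) f ⊔ Af (mx u) g := le_sup_left
  have l2 : Af (mx u) g ≤ Af (mx s) f ⊔ Af (mx u) g := le_sup_right
  refine ⟨R, hs.cle_iff.2 ((ch_of_le hf c.ne fun a z => r1 a (l1 z)).cle hK (carQ_mx s) c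
    fun b z w => Pl.ord_pos_of_inv_notMem _ fun e => v3 b z w ((r2 b (l1 z)).1 e)),
    ((ch_of_le hg g0 fun a z => r1 a (l2 z)).cle hK (carQ_mx u)
      (ch_of_le hg g0 fun a z => v1 (v4 a z)) fun b z w => Pl.ord_pos_of_inv_notMem _ fun e =>
        (pos_iff (ne_of_pos w)).1 w (v1 ((r2 b (l2 z)).1 e))).of_dsc d⟩

/-- the sections which vanish on the centre of `P` -/
def Vs (β : BD K) (P : Pl K) : Set (ℕ × K) := {x | 0 < x.1 ∧ x.2 ≠ 0 ∧ Sec ((x.1 : ℝ) • β) x.2 ∧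
  0 < (dv x.2 + (x.1 : ℝ) • β) P}

theorem Ch.cle_of_vs (hK : FF K n) (hβ : CarQ β) (c : Ch β f R)
    (h : ∀ x ∈ Vs β P, 0 < (dv x.2 + (x.1 : ℝ) • β) R) : CLe β R P :=
  cle_of_sec hK hβ fun m w w0 hw z => by
    have e : dv (w * f ^ 1) + ((m + 1 : ℕ) : ℝ) • β = dv w + (m : ℝ) • β + (dv f + β) := by
      rw [pow_one, dv_mul w0 c.ne, Nat.cast_succ]
      module
    have := h (m + 1, w * f ^ 1) ⟨m.succ_pos, mul_ne_zero w0 (pow_ne_zero _ c.ne),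
      Loq.sec_mul hw (c.sec.pow 1), by
        rw [e]; exact add_pos_of_pos_of_nonneg z ((c.sec.rep c.ne).nonneg P)⟩
    rw [e, Pi.add_apply, show (dv f + β) R = 0 from c.eq, add_zero] at this
    exact this

theorem fin_ch (hK : FF K n) (hf : f ∈ s) (f0 : f ≠ 0) (P : Pl K) : ∃ T : Set (ℕ × K), T.Finite ∧
    T ⊆ Vs (mx s) P ∧ ∀ R, Ch (mx s) f R → (∀ x ∈ T, 0 < (dv x.2 + (x.1 : ℝ) • mx s) R) →
      CLe (mx s) R P := by
  have := (Subalgebra.fg_iff_finiteType _).1 (fg_Af hK hf f0)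
  have := Algebra.FiniteType.isNoetherianRing ℂ (Af (mx s) f)
  let φ : Vs (mx s) P → Af (mx s) f := fun x => ⟨_, div_mem_Af f0 x.2.2.2.1⟩
  obtain ⟨T, h1, h2⟩ := (Submodule.fg_span_iff_fg_span_finset_subset (range φ)).1
    (IsNoetherian.noetherian (Submodule.span (Af (mx s) f) (range φ)))
  obtain ⟨T', h3, h4⟩ := T.finite_toSet.exists_subset_finite_image_eq (image_univ ▸ h1)
  refine ⟨Subtype.val '' T', h4.1.image _, by rintro _ ⟨x, -, rfl⟩; exact x.2, fun R c h =>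
    c.cle_of_vs hK (carQ_mx s) fun x hx => ?_⟩
  have h5 : Submodule.span (Af (mx s) f) (range φ) ≤ RingHom.ker (rh R _ c.mem) := by
    rw [h2, Submodule.span_le, ← h4.2]
    rintro _ ⟨y, hy, rfl⟩
    have := h _ ⟨y, hy, rfl⟩
    rw [c.val' y.2.2.1] at this
    exact (mem_ker R _ _).2 (Or.inr (by exact_mod_cast this))
  rw [c.val' hx.2.1]
  exact_mod_cast ((mem_ker R _ _).1 (h5 (Submodule.subset_span ⟨⟨x, hx⟩, rfl⟩))).resolve_left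
    (div_ne_zero hx.2.1 (pow_ne_zero _ f0))

/-- finitely many sections cut out a centre -/
theorem fin_vs (hK : FF K n) (hs : Nz s) (P : Pl K) : ∃ T : Finset (ℕ × K),
    (T : Set (ℕ × K)) ⊆ Vs (mx s) P ∧
      ∀ R, CLe (mx s) R P ↔ ∀ x ∈ T, 0 < (dv x.2 + (x.1 : ℝ) • mx s) R := by
  choose! T h1 h2 h3 using fun f (hf : f ∈ s) (f0 : f ≠ 0) => fin_ch hK hf f0 P
  have h4 : (⋃ f ∈ {f | f ∈ s ∧ f ≠ 0}, T f).Finite :=
    (s.finite_toSet.subset fun _ h => h.1).biUnion fun f h => h1 f h.1 h.2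
  have h5 : (h4.toFinset : Set (ℕ × K)) ⊆ Vs (mx s) P := by
    rw [h4.coe_toFinset]
    exact iUnion₂_subset fun f h => h2 f h.1 h.2
  refine ⟨h4.toFinset, h5, fun R => ⟨fun e x hx => ?_, fun e => ?_⟩⟩
  · obtain ⟨a, b, c, d⟩ := h5 hx
    exact CLe.sec e a b c d
  · obtain ⟨f, hf, c⟩ := exists_ch hs R
    exact h3 f hf c.ne R c fun x hx => e x (h4.mem_toFinset.2 (mem_biUnion ⟨hf, c.ne⟩ hx))

theorem cen_mx (hK : FF K n) (hs : Nz s) (h : ¬ CLe (mx s) Q P) : ∃ (m : ℕ) (u : Finset K),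
    0 < m ∧ Nz u ∧ mx u ≤ (m : ℝ) • mx s ∧
      ∀ R, 0 < ((m : ℝ) • mx s - mx u) R ↔ CLe (mx s) R P := by
  classical
  obtain ⟨T, h1, h2⟩ := fin_vs hK hs P
  obtain ⟨M, M0, hM⟩ : ∃ M, 0 < M ∧ ∀ x ∈ T, x.1 ∣ M :=
    ⟨∏ x ∈ T, x.1, Finset.prod_pos fun x hx => (h1 hx).1, fun x hx => Finset.dvd_prod_of_mem _ hx⟩
  have e : ∀ x ∈ T, dv (x.2 ^ (M / x.1)) + (M : ℝ) • mx s =
      ((M / x.1 : ℕ) : ℝ) • (dv x.2 + (x.1 : ℝ) • mx s) := fun x hx => by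
    rw [dv_pow, smul_add, smul_smul, ← Nat.cast_mul, Nat.div_mul_cancel (hM x hx)]
  have p : ∀ x ∈ T, (0 : ℝ) < (M / x.1 : ℕ) := fun x hx =>
    Nat.cast_pos.2 (Nat.div_pos (Nat.le_of_dvd M0 (hM x hx)) (h1 hx).1)
  have hu : Nz (T.image fun x => x.2 ^ (M / x.1)) := by
    obtain ⟨x, hx⟩ := T.nonempty_iff_ne_empty.2 fun z => h ((h2 Q).2 (by simp [z]))
    exact ⟨_, Finset.mem_image_of_mem _ hx, pow_ne_zero _ (h1 hx).2.1⟩
  refine ⟨M, _, M0, hu, mx_le hu fun g hg => ?_, fun R => (Iff.trans ⟨fun z x hx => ?_,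
    fun z => ?_⟩ (h2 R).symm)⟩
  · obtain ⟨x, hx, rfl⟩ := Finset.mem_image.1 hg
    exact Or.inr (e x hx ▸ smul_nonneg (p x hx).le ((h1 hx).2.2.1.rep (h1 hx).2.1).nonneg)
  · have a := dv_add_mx_nonneg (Finset.mem_image_of_mem (fun x => x.2 ^ (M / x.1)) hx)
      (pow_ne_zero _ (h1 hx).2.1) R
    have b := congrFun (e x hx) R
    refine (mul_pos_iff_of_pos_left (p x hx)).1 (lt_of_lt_of_eq ?_ b)
    simp only [Pi.add_apply, Pi.sub_apply, Pi.zero_apply] at a z ⊢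
    linarith
  · obtain ⟨g, hg, c⟩ := exists_ch hu R
    obtain ⟨x, hx, rfl⟩ := Finset.mem_image.1 hg
    have a := c.eq
    have b := (mul_pos (p x hx) (z x hx)).trans_eq (congrFun (e x hx) R).symm
    simp only [Pi.add_apply, Pi.sub_apply, dv_apply] at b ⊢
    linarith

/-- **CEN**: the pull back of the ideal of a centre -/
theorem cen' (hK : FF K n) (hΛ : Smp Λ) (h : ¬ CLe Λ Q P) : ∃ (G : BD K) (ε : ℝ), G ∈ CarZ K ∧
    0 ≤ G ∧ 0 < ε ∧ Smp (Λ - ε • G) ∧ ∀ R, 0 < G R ↔ CLe Λ R P := by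
  obtain ⟨s, h1, hs⟩ := hΛ.exists_ampOn
  obtain ⟨m, u, m0, -, h2, h3⟩ := cen_mx hK ⟨1, h1, one_ne_zero⟩ (mt hs.cle_iff.2 h)
  obtain ⟨δ, d0, h4⟩ := hs.dsc.exists_sub
  have m1 : (0 : ℝ) < m := Nat.cast_pos.2 m0
  refine ⟨(m : ℝ) • mx s - mx u, δ / m, sub_mem (CarZ.nsmul (mx_mem_CarZ s) m) (mx_mem_CarZ u),
    sub_nonneg.2 h2, div_pos d0 m1, ?_, fun R => (h3 R).trans hs.cle_iff.symm⟩
  rw [smul_sub, smul_smul, div_mul_cancel₀ _ m1.ne', ← sub_add]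
  exact h4.add ((smp_mx u).smul (div_pos d0 m1).le)

end Vale.Agent.P287D.On
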