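import Vale.Agent.P287D.On.Nor
import Vale.Agent.P287D.Va.Alg
import Vale.Agent.P287D.Ba.Hy
import Vale.Agent.P287D.Ba.Mod
import Vale.Agent.P287D.Pr.Neg
import Vale.Agent.P287D.Z.Zar

/-!
# P287D, block ON: centres of places on `V Λ`
-/

open Set
open Vale.Agent.P297Z

noncomputable section

namespace Vale.Agent.P287D.On

variable {K : Type} [Field K] [Algebra ℂ K] {n : ℕ} {β γ Λ Λ' G : BD K} {P Q R : Pl K}
  {f g b w : K} {s u : Finset K} {m : ℕ}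

/-- **RAT**: the members of a real linear system are generated by the sections -/
theorem rep_ind (hK : FF K (n + 1)) (hβ : CarQ β) {p : ℝ → BD K → Prop} (h0 : p 0 0)
    (h1 : ∀ a G b G', p a G → p b G' → p (a + b) (G + G'))
    (h2 : ∀ a G (c : ℝ), 0 ≤ c → p a G → p (c * a) (c • G))
    (h3 : ∀ (m : ℕ) (w : K), w ≠ 0 → Sec ((m : ℝ) • β) w → p m (dv w + (m : ℝ) • β))
    (hG : Rep β G) : p 1 G := by
  obtain ⟨s₀, -, b₀⟩ := P287D.exists_big hK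
  obtain ⟨s₁, -, d⟩ := Car.exists_dsc hβ.car
  have a1 := (smp_mx s₀).add (smp_mx s₁)
  have a2 := b₀.add_smp (smp_mx s₁)
  have e : ∀ a : Unit → ℝ, lc (fun _ : Unit => β) a = a () • β := fun a => by simp [lc]
  have D := det_of (D := fun _ : Unit => β) a1
    (fun Z hZ => Pr.fin_on res' hK a1 a2 ((Ba.mod.isb n K hK).1 Z hZ))
    (fun β hβ => Pr.hart res' hK a1 a2 hβ) fun _ => ⟨hβ, d.add_left' (smp_mx s₀)⟩
  refine D.ind (p := fun a G => p (a ()) G) h0 (fun a G b G' => h1 _ G _ G')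
    (fun a G c => h2 _ G c) (fun m w w0 hw => ?_) (a := 1) zero_le_one
    (by rwa [e, Pi.one_apply, one_smul])
  rw [e] at hw ⊢
  exact h3 _ w w0 hw

theorem cle_of_sec (hK : FF K n) (hβ : CarQ β) (h : ∀ (m : ℕ) (w : K), w ≠ 0 →
    Sec ((m : ℝ) • β) w → 0 < (dv w + (m : ℝ) • β) Q → 0 < (dv w + (m : ℝ) • β) P) :
    CLe β P Q := fun G hG => by
  obtain ⟨k, rfl⟩ := Ba.ff_succ hK P
  refine (rep_ind hK hβ (p := fun _ G => 0 ≤ G ∧ (0 < G Q → 0 < G P)) ⟨le_rfl, id⟩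
    (fun _ G _ G' a b => ⟨add_nonneg a.1 b.1, fun e => ?_⟩)
    (fun _ G c hc a => ⟨smul_nonneg hc a.1, fun e => ?_⟩)
    (fun m w w0 hw => ⟨(hw.rep w0).nonneg, h m w w0 hw⟩) hG).2
  · by_cases z : 0 < G Q
    · exact add_pos_of_pos_of_nonneg (a.2 z) (b.1 P)
    · exact add_pos_of_nonneg_of_pos (a.1 P) (b.2 (by
        rw [Pi.add_apply] at e
        linarith))
  · have e' : 0 < c * G Q := e
    exact mul_pos (pos_of_mul_pos_left e' (a.1 Q)) (a.2 (pos_of_mul_pos_right e' hc))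

/-- the centre of `P` lies in the chart of the section `f` -/
structure Ch (β : BD K) (f : K) (P : Pl K) : Prop where
  ne : f ≠ 0
  sec : Sec β f
  eq : (P.ord f : ℝ) + β P = 0

/-- the ring of the chart of the section `f` -/
def Af (β : BD K) (f : K) : Subalgebra ℂ K where
  carrier := {b | Sec β f → ∃ m : ℕ, Sec ((m : ℝ) • β) (b * f ^ m)}
  mul_mem' := fun {a b} ha hb h => by
    obtain ⟨m, ha⟩ := ha h
    obtain ⟨k, hb⟩ := hb h
    exact ⟨m + k, by rw [pow_add, mul_mul_mul_comm]; exact Loq.sec_mul ha hb⟩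
  add_mem' := fun {a b} ha hb h => by
    obtain ⟨m, ha⟩ := ha h
    obtain ⟨k, hb⟩ := hb h
    refine ⟨m + k, ?_⟩
    rw [show (a + b) * f ^ (m + k) = a * f ^ m * f ^ k + f ^ m * (b * f ^ k) by ring]
    exact (Loq.sec_mul ha (h.pow k)).add (Loq.sec_mul (h.pow m) hb)
  algebraMap_mem' := fun c h => ⟨1, by
    rw [← Algebra.smul_def, pow_one, Nat.cast_one, one_smul]; exact h.smul c⟩

theorem div_mem_Af (f0 : f ≠ 0) (hw : Sec ((m : ℝ) • β) w) : w / f ^ m ∈ Af β f := fun _ =>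
  ⟨m, by rwa [div_mul_cancel₀ _ (pow_ne_zero m f0)]⟩

theorem Ch.val (h : Ch β f P) (b0 : b ≠ 0) (m : ℕ) :
    (dv (b * f ^ m) + (m : ℝ) • β) P = P.ord b := by
  rw [dv_mul b0 (pow_ne_zero m h.ne), dv_pow]
  simp only [Pi.add_apply, Pi.smul_apply, dv_apply, smul_eq_mul]
  linear_combination (m : ℝ) * h.eq

theorem Ch.val' (h : Ch β f P) (w0 : w ≠ 0) (m : ℕ) :
    (dv w + (m : ℝ) • β) P = P.ord (w / f ^ m) := by
  rw [← h.val (div_ne_zero w0 (pow_ne_zero m h.ne)) m, div_mul_cancel₀ _ (pow_ne_zero m h.ne)]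

theorem Ch.mem (h : Ch β f P) (b : K) (hb : b ∈ Af β f) : b ∈ P.ring := by
  by_cases b0 : b = 0
  · rw [b0]; exact zero_mem _
  obtain ⟨m, hm⟩ := hb h.sec
  have : (0 : ℝ) ≤ P.ord b := h.val b0 m ▸ hm.resolve_left (mul_ne_zero b0 (pow_ne_zero m h.ne)) P
  exact (Pl.ord_nonneg_iff _ b0).1 (by exact_mod_cast this)

theorem exists_ch (h : Nz s) (P : Pl K) : ∃ f ∈ s, Ch (mx s) f P := by
  obtain ⟨f, hf, f0, e⟩ := P.exists_mz h
  exact ⟨f, hf, f0, sec_of_mem hf, by rw [mx_apply, e]; simp⟩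

/-- the ring of the chart of the image -/
def Bf (s : Finset K) (f : K) : Subalgebra ℂ K := Algebra.adjoin ℂ ((· / f) '' s)

theorem fg_Bf (s : Finset K) (f : K) : (Bf s f).FG :=
  Subalgebra.fg_def.2 ⟨_, s.finite_toSet.image _, rfl⟩

theorem mem_Bf (h : g ∈ s) : g / f ∈ Bf s f := Algebra.subset_adjoin ⟨g, h, rfl⟩

theorem Bf_le (f0 : f ≠ 0) : Bf s f ≤ Af (mx s) f := Algebra.adjoin_le (by
  rintro _ ⟨g, hg, rfl⟩
  have := div_mem_Af (β := mx s) (m := 1) (w := g) f0 (by simpa using sec_of_mem hg)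
  rwa [pow_one] at this)

theorem ch_of (hf : f ∈ s) (f0 : f ≠ 0) (h : ∀ g ∈ s, g / f ∈ P.ring) : Ch (mx s) f P :=
  ⟨f0, sec_of_mem hf, by
    rw [mx_apply, P.mz_eq hf f0 fun g hg g0 => by
      have := Pl.ord_nonneg_of_mem _ (h g hg)
      rw [Pl.ord_div _ g0 f0] at this
      omega]
    simp⟩

theorem int_Af (hK : FF K n) (hf : f ∈ s) (f0 : f ≠ 0) (b : K) (hb : b ∈ Af (mx s) f) :
    IsIntegral (Bf s f) b := by
  by_contra e
  obtain ⟨P, h1, h2⟩ := val hK (fg_Bf s f) e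
  exact h2 ((ch_of hf f0 fun g hg => h1 _ (mem_Bf hg)).mem b hb)

theorem fg_Af (hK : FF K n) (hf : f ∈ s) (f0 : f ≠ 0) : (Af (mx s) f).FG :=
  fg_of_int hK (fg_Bf s f) (Bf_le f0) (int_Af hK hf f0)

theorem CLe.sec (h : CLe β P Q) (hm : 0 < m) (w0 : w ≠ 0) (hw : Sec ((m : ℝ) • β) w)
    (e : 0 < (dv w + (m : ℝ) • β) Q) : 0 < (dv w + (m : ℝ) • β) P := by
  have c : (0 : ℝ) < (m : ℝ)⁻¹ := by positivity
  have r := (hw.rep w0).smul c.le
  rw [smul_smul, inv_mul_cancel₀ (by positivity), one_smul] at r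
  exact (mul_pos_iff_of_pos_left c).1 (h _ r (mul_pos c e))

theorem Ch.of_cle (h : Ch β f P) (e : CLe β P Q) : Ch β f Q :=
  ⟨h.ne, h.sec, e.zero (h.sec.rep h.ne) h.eq⟩

theorem Ch.pos (h : Ch β f P) (e : CLe β P Q) (b : K) (hb : b ∈ Af β f) (z : 0 < Q.ord b) :
    0 < P.ord b := by
  have b0 : b ≠ 0 := fun w => by simp [w] at z
  obtain ⟨m, hm⟩ := hb h.sec
  have h1 := Loq.sec_mul hm (h.sec.pow 1)
  rw [mul_assoc, ← pow_add] at h1
  have h2 := CLe.sec e (Nat.succ_pos m) (mul_ne_zero b0 (pow_ne_zero _ h.ne)) h1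
  rw [h.val b0, (h.of_cle e).val b0] at h2
  exact_mod_cast h2 (by exact_mod_cast z)

theorem Ch.cle (hK : FF K n) (hβ : CarQ β) (h : Ch β f P) (h' : Ch β f Q)
    (e : ∀ b ∈ Af β f, 0 < Q.ord b → 0 < P.ord b) : CLe β P Q :=
  cle_of_sec hK hβ fun m w w0 hw z => by
    rw [h'.val' w0] at z
    rw [h.val' w0]
    exact_mod_cast e _ (div_mem_Af h.ne hw) (by exact_mod_cast z)

/-- inclusion of centres is inclusion of prime ideals in a chart -/
theorem cle_iff (hK : FF K n) (hβ : CarQ β) (h : Ch β f P) :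
    CLe β P Q ↔ Ch β f Q ∧ ∀ b ∈ Af β f, 0 < Q.ord b → 0 < P.ord b :=
  ⟨fun e => ⟨h.of_cle e, h.pos e⟩, fun e => h.cle hK hβ e.1 e.2⟩

/-! ### the dimension of the centre -/

theorem rts_rs (hf : f ∈ s) (h : Ch (mx s) f P) : rts (P.rs s) = img P (Bf s f) := by
  classical
  have e : P.mz s = -P.ord f := by
    have := h.eq
    rw [mx_apply] at this
    have : P.ord f + P.mz s = 0 := by exact_mod_cast this
    omega
  have a0 := mul_ne_zero h.ne (zpow_ne_zero (P.mz s) P.t_ne)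
  have a1 : P.ord (f * P.t ^ P.mz s) = 0 := by rw [P.ord_mul_t h.ne]; omega
  have a2 := (Pl.ord_eq_zero_iff _ a0).1 a1
  have hB : ∀ a ∈ Bf s f, a ∈ P.ring := fun a z => h.mem a (Bf_le h.ne z)
  have a3 : ∀ g ∈ s, P.rd (g / f) = P.rd (g * P.t ^ P.mz s) / P.rd (f * P.t ^ P.mz s) :=
    fun g hg => by
      rw [← rd_div P (P.mem_ring_mz (Submodule.subset_span hg)) a2.1 a2.2,
        mul_div_mul_right _ _ (zpow_ne_zero _ P.t_ne)]
  have a4 : ∀ g ∈ s, P.rd (g * P.t ^ P.mz s) ∈ P.rs s := fun g hg => Finset.mem_image_of_mem _ hg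
  refine le_antisymm (rts_le_iff.2 fun a ha b hb => ?_) (IntermediateField.adjoin_le_iff.2 ?_)
  · obtain ⟨a, ha', rfl⟩ := Finset.mem_image.1 ha
    obtain ⟨b, hb', rfl⟩ := Finset.mem_image.1 hb
    rw [← div_div_div_cancel_right₀ (Loq.rd_ne a0 a1), ← a3 a ha', ← a3 b hb']
    exact div_mem (mem_img P (mem_Bf ha')) (mem_img P (mem_Bf hb'))
  rintro _ ⟨a, z, rfl⟩
  induction z using Algebra.adjoin_induction with
  | mem x hx =>
    obtain ⟨g, hg, rfl⟩ := hx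
    rw [a3 g hg]
    exact div_mem_rts (a4 g hg) (a4 f hf)
  | algebraMap r =>
    rw [Bm.rd_const]
    exact IntermediateField.algebraMap_mem _ r
  | add x y hx hy a b =>
    rw [rd_add P (hB _ hx) (hB _ hy)]
    exact add_mem a b
  | mul x y hx hy a b =>
    rw [rd_mul P (hB _ hx) (hB _ hy)]
    exact mul_mem a b

theorem cd_mx (hK : FF K (n + 1)) (hf : f ∈ s) (h : Ch (mx s) f P) :
    Algebra.trdeg ℂ (img P (Bf s f)) = cd (mx s) P := by
  rw [cd, res_mx hK, ← dim_mx (Gm.ff_κ P hK), rts_rs hf h]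

theorem cd_eq (hK : FF K n) (h : AmpOn Λ Λ') (P : Pl K) : cd Λ' P = cd Λ P :=
  (res_ampOn hK P h).dim_eq

theorem cd_mono (hK : FF K (n + 1)) (h : Dsc Λ Λ') (P : Pl K) : cd Λ' P ≤ cd Λ P :=
  (res_dsc hK P h).dim_le (Gm.ff_κ P hK)

theorem cd_le (hK : FF K (n + 1)) (Λ : BD K) (P : Pl K) : cd Λ P ≤ n := dim_le (Gm.ff_κ P hK) _

theorem on_iff_cd (hK : FF K (n + 1)) (h : Smp Λ) : On n Λ P ↔ cd Λ P = n :=
  (on_iff_big hK P h.nef).trans (big_iff_dim (Gm.ff_κ P hK) (res_smp hK P h).eff)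

theorem cle_cd (hK : FF K (n + 1)) (h : Smp Λ) (e : CLe Λ P Q) :
    cd Λ P ≤ cd Λ Q ∧ (cd Λ P = cd Λ Q → CLe Λ Q P) := by
  obtain ⟨s, h1, hs⟩ := h.exists_ampOn
  rw [← cd_eq hK hs, ← cd_eq hK hs, hs.cle_iff]
  rw [hs.cle_iff] at e
  obtain ⟨f, hf, c⟩ := exists_ch ⟨1, h1, one_ne_zero⟩ P
  have c' := c.of_cle e
  have l := Bf_le (s := s) c.ne
  have hP : ∀ a ∈ Bf s f, a ∈ P.ring := fun a z => c.mem a (l z)
  have hQ : ∀ a ∈ Bf s f, a ∈ Q.ring := fun a z => c'.mem a (l z)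
  have hc : ∀ a ∈ Bf s f, 0 < Q.ord a → 0 < P.ord a := fun a z => c.pos e a (l z)
  refine ⟨?_, fun z => c'.cle hK (carQ_mx s) c fun b hb w => by_contra fun v => ?_⟩
  · have := img_le hP hQ hc
    rw [cd_mx hK hf c, cd_mx hK hf c'] at this
    exact_mod_cast this
  let := (Subalgebra.inclusion l).toAlgebra
  have : IsScalarTower (Bf s f) (Af (mx s) f) K := .of_algebraMap_eq fun _ => rfl
  have := RingHom.ker_isPrime (rh Q _ c'.mem)
  have b0 : b ≠ 0 := fun w' => by simp [w'] at w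
  obtain ⟨a, a1, a2⟩ := SetLike.exists_of_lt (Ideal.comap_lt_comap_of_integral_mem_sdiff
    (R := Bf s f) (ker_le c.mem c'.mem (c.pos e)) (x := ⟨b, hb⟩)
    ⟨(mem_ker P _ _).2 (Or.inr w), fun u => ((mem_ker Q _ _).1 u).elim b0 v⟩
    ((isIntegral_algebraMap_iff (B := K) Subtype.val_injective).1 (int_Af hK hf c.ne b hb)))
  rw [Ideal.mem_comap, mem_ker] at a1 a2
  have := img_lt hP hQ hc a.2 (a1.resolve_left fun u => a2 (Or.inl u)) fun u => a2 (Or.inr u)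
  rw [cd_mx hK hf c, cd_mx hK hf c', z] at this
  norm_cast at this
  omega

theorem cle_of_hor (hK : FF K n) (h : Smp Λ) (e : Hor (fld Λ) P) (R : Pl K) : CLe Λ R P := by
  obtain ⟨s, h1, hs⟩ := h.exists_ampOn
  rw [← hs.fld_eq] at e
  obtain ⟨f, -, c⟩ := exists_ch ⟨1, h1, one_ne_zero⟩ P
  refine hs.cle_iff.2 (cle_of_sec hK (carQ_mx s) fun m w w0 hw z => ?_)
  have h2 := Loq.sec_mul hw (c.sec.pow 1)
  have h3 := h2.div_mem (c.sec.pow (m + 1))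
  rw [fld_smul (by positivity), pow_add, mul_div_mul_right _ _ (pow_ne_zero _ c.ne)] at h3
  rw [c.val' w0, e.ord h3] at z
  simp at z

theorem rep_of_not_hor (h : Eff Λ) (e : ¬ Hor (fld Λ) P) : ∃ G, Rep Λ G ∧ 0 < G P := by
  obtain ⟨f, hf, e⟩ : ∃ f ∈ fld Λ, f ∉ P.ring := by simpa [Hor] using e
  obtain ⟨ε, h0, G, r⟩ := (mem_fld h).1 hf
  have r' := r.add ((Rep.refl (pld_nonneg f)).smul h0.le)
  rw [sub_add_cancel] at r'
  exact ⟨_, r', add_pos_of_nonneg_of_pos (r.nonneg P) (mul_pos h0 (pld_pos.2 e))⟩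

theorem hor_iff (hK : FF K n) (h : Smp Λ) : Hor (fld Λ) P ↔ ∀ R, CLe Λ R P := by
  refine ⟨cle_of_hor hK h, fun e => by_contra fun z => ?_⟩
  obtain ⟨k, rfl⟩ := Ba.ff_succ hK P
  obtain ⟨G, r, w⟩ := rep_of_not_hor h.eff z
  obtain ⟨R, v⟩ := exists_zero hK (r.car h.car)
  exact (e R G r w).ne' v

theorem hor_iff_rep (hK : FF K n) (h : Smp Λ) : Hor (fld Λ) P ↔ ∀ G, Rep Λ G → G P = 0 := by
  refine ⟨fun e G r => ?_, fun e => by_contra fun z => ?_⟩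
  · obtain ⟨k, rfl⟩ := Ba.ff_succ hK P
    obtain ⟨R, v⟩ := exists_zero hK (r.car h.car)
    exact (cle_of_hor hK h e R).zero r v
  · obtain ⟨G, r, w⟩ := rep_of_not_hor h.eff z
    exact w.ne' (e G r)

/-- the row `FLD.cen` -/
theorem fld_cen : ForS fun n K _ _ => ∀ (Λ : BD K) (P Q : Pl K), Smp Λ →
    (On n Λ P ↔ cd Λ P = n) ∧ (Hor (fld Λ) P ↔ ∀ R, CLe Λ R P) ∧
    (CLe Λ P Q → cd Λ P ≤ cd Λ Q ∧ (cd Λ P = cd Λ Q → CLe Λ Q P)) :=
  fun _ _ _ _ hK _ _ _ h => ⟨on_iff_cd hK h, hor_iff hK h, cle_cd hK h⟩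

end Vale.Agent.P287D.On
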