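import Vale.Agent.P287D.On.Val
import Vale.Agent.P287D.Va.Cone

/-!
# P287D, block ON: finiteness of the normalisation, composite valuations
-/

open Set IntermediateField
open Vale.Agent.P297Z

noncomputable section

namespace Vale.Agent.P287D.On

variable {K : Type} [Field K] [Algebra ℂ K] {n : ℕ}

open scoped IntermediateField.algebraAdjoinAdjoin in
/-- integral extensions of finitely generated algebras are finitely generated -/
theorem fg_of_int (h : FF K n) {B A : Subalgebra ℂ K} (hB : B.FG) (hle : B ≤ A)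
    (hi : ∀ a ∈ A, IsIntegral B a) : A.FG := by
  obtain ⟨d, y, hy, h1, h2⟩ := nn B hB
  have h3 : Algebra.adjoin ℂ (range y) ≤ B := Algebra.adjoin_le (range_subset_iff.2 h1)
  have h4 : ∀ a ∈ A, IsIntegral (Algebra.adjoin ℂ (range y)) a := fun a z => by
    let := (Subalgebra.inclusion h3).toAlgebra
    have : IsScalarTower (Algebra.adjoin ℂ (range y)) B K := .of_algebraMap_eq fun _ => rfl
    have : Algebra.IsIntegral (Algebra.adjoin ℂ (range y)) B := ⟨fun c => by
      refine (isIntegral_algebraMap_iff (B := K) Subtype.val_injective).1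
        (RingHom.IsIntegralElem.of_comp (f := hy.aevalEquiv.toRingEquiv.toRingHom) ?_)
      have e : (algebraMap (Algebra.adjoin ℂ (range y)) K).comp
          hy.aevalEquiv.toRingEquiv.toRingHom = (MvPolynomial.aeval y).toRingHom :=
        RingHom.ext fun p => hy.algebraMap_aevalEquiv p
      rw [e]
      exact h2 _ c.2⟩
    exact isIntegral_trans a (hi a z)
  have : UniqueFactorizationMonoid (Algebra.adjoin ℂ (range y)) :=
    hy.aevalEquiv.toMulEquiv.uniqueFactorizationMonoid inferInstance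
  have hf : (Algebra.adjoin ℂ (range y)).FG := Subalgebra.fg_def.2 ⟨_, finite_range y, rfl⟩
  have : Algebra.FiniteType ℂ (Algebra.adjoin ℂ (range y)) := (Subalgebra.fg_iff_finiteType _).1 hf
  have : IsNoetherianRing (Algebra.adjoin ℂ (range y)) := Algebra.FiniteType.isNoetherianRing ℂ _
  have := ess h (adjoin ℂ (range y))
  have : CharZero (adjoin ℂ (range y)) := algebraRat.charZero _
  have hF := Gm.fin_algCl (adjoin ℂ (range y)) K
  generalize hL : algebraicClosure (adjoin ℂ (range y)) K = L at hF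
  have : IsScalarTower (Algebra.adjoin ℂ (range y)) L K := .of_algebraMap_eq fun _ => rfl
  have h5 := IsIntegralClosure.finite (Algebra.adjoin ℂ (range y)) (adjoin ℂ (range y)) L
    (integralClosure (Algebra.adjoin ℂ (range y)) L)
  let g := (IsScalarTower.toAlgHom (Algebra.adjoin ℂ (range y)) L K).comp
    (integralClosure (Algebra.adjoin ℂ (range y)) L).val
  let A' : Subalgebra (Algebra.adjoin ℂ (range y)) K :=
    { A.toSubsemiring with algebraMap_mem' := fun a => hle (h3 a.2) }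
  have h6 : A'.FG := Subalgebra.fg_of_fg_toSubmodule
    ((Submodule.fg_range g.toLinearMap).of_le fun a z => ⟨⟨⟨a, hL ▸ mem_algebraicClosure_iff.2
      (isAlgebraic_adjoin_iff.2 (h4 a z).isAlgebraic)⟩,
      (isIntegral_algebraMap_iff (B := K) Subtype.val_injective).1 (h4 a z)⟩, rfl⟩)
  obtain ⟨T, hT, e⟩ := Subalgebra.fg_def.1 h6
  have h7 := fg_adj hf hT
  rw [e] at h7
  exact h7

theorem trdeg_lt {A B : Type} [CommRing A] [IsDomain A] [Algebra ℂ A] [CommRing B] [IsDomain B]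
    [Algebra ℂ B] (ψ : A →ₐ[ℂ] B) (hs : Function.Surjective ψ) {b : A} (h0 : b ≠ 0)
    (hb : ψ b = 0) : Algebra.trdeg ℂ B + 1 ≤ Algebra.trdeg ℂ A := by
  obtain ⟨s, h⟩ := exists_isTranscendenceBasis ℂ B
  choose z hz using fun i : s => hs i
  have h1 : AlgebraicIndependent ℂ fun i => ψ (z i) := by
    rw [funext hz]
    exact h.1
  have h2 : AlgebraicIndependent ℂ fun o : Option s => o.elim b z := by
    refine AlgebraicIndependent.option_iff.2 ⟨AlgebraicIndependent.of_comp ψ h1, fun h => ?_⟩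
    obtain ⟨r, r0, c, hc⟩ := h.exists_nonzero_dvd (mem_nonZeroDivisors_of_ne_zero h0)
    obtain ⟨F, hF⟩ := (Algebra.adjoin_range_eq_range_aeval ℂ z).le r.2
    have h2 : MvPolynomial.aeval (fun i => ψ (z i)) F = 0 := by
      rw [← MvPolynomial.comp_aeval, AlgHom.comp_apply]
      exact (congrArg ψ (hF.trans hc)).trans (by rw [map_mul, hb, zero_mul])
    refine r0 (Subtype.ext (hF.symm.trans ?_))
    rw [algebraicIndependent_iff.1 h1 F h2]
    exact map_zero _
  rw [← h.cardinalMk_eq_trdeg, ← Cardinal.mk_option]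
  exact h2.cardinalMk_le_trdeg

/-- the residue map on a subalgebra -/
def rh (P : Pl K) (B : Subalgebra ℂ K) (h : ∀ a ∈ B, a ∈ P.ring) : B →ₐ[ℂ] P.κ :=
  { (Gm.rdA P).comp (B.val.toRingHom.codRestrict P.ring fun a => h a a.2) with
    commutes' := Gm.rdA_const P }

theorem rh_apply (P : Pl K) {B : Subalgebra ℂ K} (h : ∀ a ∈ B, a ∈ P.ring) (a : B) :
    rh P B h a = P.rd a := (rd_eq P (h a a.2)).symm

theorem mem_ker (P : Pl K) {B : Subalgebra ℂ K} (h : ∀ a ∈ B, a ∈ P.ring) (a : B) :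
    a ∈ RingHom.ker (rh P B h) ↔ (a : K) = 0 ∨ 0 < P.ord a := by
  rw [RingHom.mem_ker, rh_apply, rd_zero_iff P (h a a.2)]

open scoped IntermediateField.algebraAdjoinAdjoin in
theorem trdeg_adjoin {E : Type} [Field E] [Algebra ℂ E] (S : Set E) :
    Algebra.trdeg ℂ (adjoin ℂ S) = Algebra.trdeg ℂ (Algebra.adjoin ℂ S) := by
  rw [← trdeg_add_eq ℂ (Algebra.adjoin ℂ S) (A := adjoin ℂ S),
    trdeg_eq_zero (R := Algebra.adjoin ℂ S), add_zero]

theorem trdeg_img (P : Pl K) {B : Subalgebra ℂ K} (h : ∀ a ∈ B, a ∈ P.ring) :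
    Algebra.trdeg ℂ (img P B) = Algebra.trdeg ℂ (B ⧸ RingHom.ker (rh P B h)) := by
  have e : P.rd '' B = (rh P B h).range := by
    ext x
    exact ⟨fun ⟨a, z, w⟩ => ⟨⟨a, z⟩, (rh_apply P h _).trans w⟩,
      fun ⟨a, w⟩ => ⟨a, a.2, (rh_apply P h _).symm.trans w⟩⟩
  rw [img, trdeg_adjoin, e, Algebra.adjoin_eq]
  exact (Ideal.quotientKerEquivRange (rh P B h)).trdeg_eq.symm

section cmp

variable {P Q : Pl K} {B : Subalgebra ℂ K} (hP : ∀ a ∈ B, a ∈ P.ring) (hQ : ∀ a ∈ B, a ∈ Q.ring)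
  (h : ∀ a ∈ B, 0 < Q.ord a → 0 < P.ord a)
include h

theorem ker_le : RingHom.ker (rh Q B hQ) ≤ RingHom.ker (rh P B hP) := fun a z =>
  (mem_ker P hP a).2 (((mem_ker Q hQ a).1 z).imp_right (h a a.2))

include hP hQ

theorem img_le : Algebra.trdeg ℂ (img P B) ≤ Algebra.trdeg ℂ (img Q B) := by
  rw [trdeg_img P hP, trdeg_img Q hQ]
  exact trdeg_le_of_surjective (Ideal.Quotient.factorₐ ℂ (ker_le hP hQ h))
    (Ideal.Quotient.factor_surjective (ker_le hP hQ h))

theorem img_lt {a : K} (ha : a ∈ B) (h1 : 0 < P.ord a) (h2 : ¬ 0 < Q.ord a) :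
    Algebra.trdeg ℂ (img P B) + 1 ≤ Algebra.trdeg ℂ (img Q B) := by
  rw [trdeg_img P hP, trdeg_img Q hQ]
  have := (Ideal.Quotient.isDomain_iff_prime _).2 (RingHom.ker_isPrime (rh P B hP))
  have := (Ideal.Quotient.isDomain_iff_prime _).2 (RingHom.ker_isPrime (rh Q B hQ))
  refine trdeg_lt (Ideal.Quotient.factorₐ ℂ (ker_le hP hQ h))
    (Ideal.Quotient.factor_surjective (ker_le hP hQ h))
    (b := Ideal.Quotient.mk _ ⟨a, ha⟩) (fun e => ?_)
    (Ideal.Quotient.eq_zero_iff_mem.2 ((mem_ker P hP ⟨a, ha⟩).2 (Or.inr h1)))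
  refine ((mem_ker Q hQ ⟨a, ha⟩).1 (Ideal.Quotient.eq_zero_iff_mem.1 e)).elim (fun z => ?_) h2
  rw [show a = 0 from z, Pl.ord_zero] at h1
  exact lt_irrefl _ h1

end cmp

/-- a place at which finitely many functions are units -/
theorem exists_unit (h : FF K (n + 1)) {T : Set K} (hT : T.Finite) :
    ∃ P : Pl K, ∀ f ∈ T, P.ord f = 0 := by
  obtain ⟨y, hy, -⟩ := id h
  have hB : (Algebra.adjoin ℂ (insert (y 0) (T ∪ T⁻¹))).FG :=
    Subalgebra.fg_def.2 ⟨_, (hT.union hT.inv).insert _, rfl⟩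
  have h1 : ∀ a ∈ insert (y 0) (T ∪ T⁻¹), a ∈ Algebra.adjoin ℂ (insert (y 0) (T ∪ T⁻¹)) :=
    Algebra.subset_adjoin
  generalize Algebra.adjoin ℂ (insert (y 0) (T ∪ T⁻¹)) = B at hB h1
  obtain ⟨b, hb, hi⟩ : ∃ b ∈ B, b⁻¹ ∉ B := by
    by_contra e
    push Not at e
    have : Algebra.FiniteType ℂ (B.toIntermediateField e) := (Subalgebra.fg_iff_finiteType B).1 hB
    have := finite_of_finite_type_of_isJacobsonRing ℂ (B.toIntermediateField e)
    exact hy.transcendental 0 (IsAlgebraic.of_finite ℂ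
      (⟨y 0, h1 _ (mem_insert _ _)⟩ : B.toIntermediateField e)).algebraMap
  obtain ⟨P, hP, -⟩ := div h hB hb (fun e => hi (by rw [e, inv_zero]; exact zero_mem _)) hi
  exact ⟨P, fun f z => Pl.ord_unit _ (hP _ (h1 _ (Or.inr (Or.inl z))))
    (hP _ (h1 _ (Or.inr (Or.inr (inv_mem_inv.2 z)))))⟩

/-- a Cartier b-divisor vanishes somewhere -/
theorem exists_zero (h : FF K (n + 1)) {β : BD K} (hβ : β ∈ Car K) : ∃ P, β P = 0 := by
  obtain ⟨l, rfl⟩ := mem_Car.1 hβ
  obtain ⟨P, hP⟩ := exists_unit h (T := ⋃ s ∈ l.support, (s : Set K))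
    (l.support.finite_toSet.biUnion fun s _ => s.finite_toSet)
  refine ⟨P, ?_⟩
  rw [cmb_sum, Finset.sum_apply]
  refine Finset.sum_eq_zero fun s hs => ?_
  have : P.mz s = 0 := by
    by_cases e : Nz s
    · obtain ⟨f, hf, -, e⟩ := P.exists_mz e
      rw [e, hP f (mem_biUnion hs hf), neg_zero]
    · exact P.mz_of_not e
  rw [Pi.smul_apply, mx_apply, this, Int.cast_zero, smul_zero]

theorem rd_one (P : Pl K) : P.rd 1 = 1 := (rd_eq P (one_mem _)).trans (map_one (Gm.rdA P))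

/-- the composite of a place with a valuation of its residue field -/
def cmpV (P : Pl K) (U : ValuationSubring P.κ) : ValuationSubring K where
  carrier := {x | x ∈ P.ring ∧ P.rd x ∈ U}
  mul_mem' a b := ⟨mul_mem a.1 b.1, by rw [rd_mul P a.1 b.1]; exact mul_mem a.2 b.2⟩
  one_mem' := ⟨one_mem _, by rw [rd_one]; exact one_mem _⟩
  add_mem' a b := ⟨add_mem a.1 b.1, by rw [rd_add P a.1 b.1]; exact add_mem a.2 b.2⟩
  zero_mem' := ⟨zero_mem _, by rw [(rd_zero_iff P (zero_mem _)).2 (Or.inl rfl)]; exact zero_mem _⟩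
  neg_mem' {x} a := ⟨neg_mem a.1, by
    have := rd_add P a.1 (neg_mem a.1)
    rw [add_neg_cancel, (rd_zero_iff P (zero_mem _)).2 (Or.inl rfl)] at this
    rw [eq_neg_of_add_eq_zero_right this.symm]
    exact neg_mem a.2⟩
  mem_or_inv_mem' x := by
    by_cases a : x ∈ P.ring
    · by_cases b : x⁻¹ ∈ P.ring
      · refine (U.mem_or_inv_mem (P.rd x)).imp (fun e => ⟨a, e⟩) fun e => ⟨b, ?_⟩
        have := rd_div P (one_mem _) a b
        rw [one_div, rd_one, one_div] at this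
        rwa [this]
      · exact Or.inl ⟨a, by
          rw [(rd_zero_iff P a).2 (Or.inr (Pl.ord_pos_of_inv_notMem _ b))]; exact zero_mem _⟩
    · have b := (P.ring.mem_or_inv_mem x).resolve_left a
      exact Or.inr ⟨b, by
        rw [(rd_zero_iff P b).2 (Or.inr (Pl.ord_pos_of_inv_notMem _ (by rwa [inv_inv])))]
        exact zero_mem _⟩

/-- a valuation below `P` whose centre on `B` lies in the centre of `Q` -/
theorem exists_spec {P Q : Pl K} {B : Subalgebra ℂ K} (hP : ∀ a ∈ B, a ∈ P.ring)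
    (hQ : ∀ a ∈ B, a ∈ Q.ring) (h : ∀ a ∈ B, 0 < P.ord a → 0 < Q.ord a) :
    ∃ V : ValuationSubring K, V ≤ P.ring ∧ (∀ a ∈ B, a ∈ V) ∧
      ∀ a ∈ B, 0 < Q.ord a → a⁻¹ ∉ V := by
  let ρ := (rh P B hP).toRingHom
  have h1 : (RingHom.ker (rh Q B hQ)).map ρ.rangeRestrict ≠ ⊤ := fun e => by
    obtain ⟨a, z, w⟩ := (Ideal.mem_map_iff_of_surjective _ ρ.rangeRestrict_surjective).1
      ((Ideal.eq_top_iff_one _).1 e)
    have h2 : a - 1 ∈ RingHom.ker (rh P B hP) := by
      rw [RingHom.mem_ker, map_sub, map_one, sub_eq_zero]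
      exact congrArg Subtype.val w
    have h3 := sub_mem z (ker_le hQ hP h h2)
    rw [sub_sub_cancel] at h3
    exact (RingHom.ker_isPrime (rh Q B hQ)).one_notMem h3
  obtain ⟨U, h2, h3⟩ := Ideal.image_subset_nonunits_valuationSubring _ h1
  refine ⟨cmpV P U, fun a z => z.1, fun a z => ⟨hP a z, h2 ⟨⟨a, z⟩, rh_apply P hP _⟩⟩,
    fun a z w v => ?_⟩
  have h4 : P.rd a ∈ U.nonunits := h3 ⟨_, Ideal.mem_map_of_mem _
    ((mem_ker Q hQ ⟨a, z⟩).2 (Or.inr w)), rh_apply P hP _⟩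
  have h5 := rd_div P (one_mem _) (hP a z) v.1
  rw [one_div, rd_one, one_div] at h5
  refine (U.mem_nonunits_iff_or.1 h4).elim (fun e => ?_) fun e => e (h5 ▸ v.2)
  have h6 := Pl.ord_unit _ (hP a z) v.1
  refine ((rd_zero_iff P (hP a z)).1 e).elim (fun e => ?_) fun e => by omega
  rw [e, Pl.ord_zero] at w
  exact lt_irrefl _ w

/-- a divisorial place in place of a valuation below a place -/
theorem apx' (h : FF K n) {P : Pl K} {V : ValuationSubring K} (hV : V ≤ P.ring)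
    {B : Subalgebra ℂ K} (hB : B.FG) (hle : ∀ a ∈ B, a ∈ V) :
    ∃ R : Pl K, (∀ a ∈ B, a ∈ R.ring) ∧ ∀ a ∈ B, (a⁻¹ ∈ R.ring ↔ a⁻¹ ∈ V) := by
  by_cases e : ∃ a ∈ B, a⁻¹ ∉ V
  · exact apx h V hB hle e
  · push Not at e
    exact ⟨P, fun a z => hV (hle a z), fun a z => ⟨fun _ => e a z, fun w => hV w⟩⟩

end Vale.Agent.P287D.On
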