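import Vale.Agent.P287D.On.Cen
import Vale.Agent.P287D.Va.Nd

/-!
# P287D, block ON: the row `FLD`
-/

namespace Vale.Agent.P287D

/-- **FLD** -/
theorem fld' : FLD := fld_of fld_nd On.fld_cen

end Vale.Agent.P287D
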