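import Vale.Agent.P287D.On.Lf
import Vale.Agent.P287D.Ku.Rc

/-!
# P287D, block ON: the rows `CN`, `LF`, `URC`
-/

namespace Vale.Agent.P287D.On

theorem cn' : Ku.CN := fun _ _ _ _ hK _ _ _ hΛ h =>
  let ⟨G, ε, a, b⟩ := cen' hK hΛ h
  ⟨G, ε, CarZ.carQ a, b⟩

theorem lf' : Ku.LF := fun _ _ _ _ hK _ _ _ _ hΛ hA h => lift' hK hΛ hA h

theorem urc : URC := Ku.urc_of cn' lf'

end Vale.Agent.P287D.On
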